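/-
P217, block A: data and statements for Hazewinkel's functional equation lemma.
-/
import Mathlib

namespace Vale.Agent.P217.Law

/-- A ring `A` with a Frobenius lift inside a ring `K` where `p` is invertible, together with the
coefficients of a logarithm satisfying a functional equation. -/
structure FunEqData (A K : Type) [CommRing A] [CommRing K] where
  p : ℕ
  hp : p.Prime
  inc : A →+* K
  inc_injective : Function.Injective inc
  sigA : A →+* A
  sigK : K →+* K
  sig_comm : ∀ a, sigK (inc a) = inc (sigA a)
  frob : ∀ a, (p : A) ∣ sigA a - a ^ p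
  pinv : K
  pinv_mul : pinv * (p : K) = 1
  n : ℕ
  u : ℕ → A
  m : ℕ → K
  m_zero : m 0 = 1
  m_succ : ∀ N, m (N + 1) = ∑ i : Fin (N + 1),
    if i.val < n then pinv * inc (u (i.val + 1)) * sigK^[i.val + 1] (m (N - i.val)) else 0

variable {A K : Type} [CommRing A] [CommRing K] (D : FunEqData A K)

/-- The logarithm `Σ m_N x^{p^N}`. -/
noncomputable def FunEqData.log : PowerSeries K :=
  PowerSeries.mk fun b => if D.p ^ Nat.log D.p b = b then D.m (Nat.log D.p b) else 0

/-- The Frobenius lift on power series: `σ` on coefficients and `x ↦ x^p`. -/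
noncomputable def FunEqData.frobPS (τ : Type) : MvPowerSeries τ K →+* MvPowerSeries τ K :=
  (MvPowerSeries.expand D.p D.hp.ne_zero).toRingHom.comp (MvPowerSeries.map D.sigK)

/-- The defect of the functional equation. -/
noncomputable def FunEqData.defect {τ : Type} (g : MvPowerSeries τ K) : MvPowerSeries τ K :=
  g - ∑ i ∈ Finset.range D.n,
    MvPowerSeries.C (D.pinv * D.inc (D.u (i + 1))) * (D.frobPS τ)^[i + 1] g

/-- All coefficients lie in `A`. -/
def FunEqData.Integral {τ : Type} (g : MvPowerSeries τ K) : Prop :=
  ∀ d, MvPowerSeries.coeff d g ∈ D.inc.range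

/-- Functional equation lemma: the inverse logarithm of a series with integral defect is
integral. -/
def FunEqData.InvLogStatement : Prop :=
  ∀ (τ : Type) [Finite τ] (F : MvPowerSeries τ K), MvPowerSeries.constantCoeff F = 0 →
    D.Integral (D.defect (PowerSeries.subst F D.log)) → D.Integral F

/-- Converse: the logarithm of an integral series has integral defect. -/
def FunEqData.LogStatement : Prop :=
  ∀ (τ : Type) [Finite τ] (F : MvPowerSeries τ K), MvPowerSeries.constantCoeff F = 0 →
    D.Integral F → D.Integral (D.defect (PowerSeries.subst F D.log))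

end Vale.Agent.P217.Law
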