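/-
P217, block A: the Frobenius lift on the Lubin-Tate ring and the functional-equation form of
Hazewinkel's coefficients.
-/
import Vale.Agent.P217.Defs
import Vale.Agent.P217.Law.Data

namespace Vale.Agent.P217

open MvPowerSeries

variable (p n : ℕ) [hp : Fact p.Prime]

local instance : PerfectRing (Res p n) p := by
  have : Finite (Res p n) := inferInstance
  infer_instance

/-- The Frobenius lift on `LT`: Witt Frobenius on coefficients and `u ↦ u^p`. -/
noncomputable def sigLT : LT p n →+* LT p n :=
  (MvPowerSeries.expand p hp.out.ne_zero).toRingHom.comp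
    (MvPowerSeries.map (WittVector.frobenius : WittVector p (Res p n) →+* WittVector p (Res p n)))

/-- Frobenius on the fraction field of the Witt vectors. -/
noncomputable def frobFrac :
    FractionRing (WittVector p (Res p n)) →+* FractionRing (WittVector p (Res p n)) :=
  IsFractionRing.lift (g := (algebraMap (WittVector p (Res p n))
      (FractionRing (WittVector p (Res p n)))).comp WittVector.frobenius)
    ((IsFractionRing.injective _ _).comp (WittVector.frobenius_bijective p (Res p n)).injective)

/-- The extension of `sigLT` to `RatLT`. -/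
noncomputable def sigRat : RatLT p n →+* RatLT p n :=
  (MvPowerSeries.expand p hp.out.ne_zero).toRingHom.comp (MvPowerSeries.map (frobFrac p n))

lemma toRat_injective : Function.Injective (toRat p n) := by
  intro a b h
  refine MvPowerSeries.ext fun d => ?_
  apply IsFractionRing.injective (WittVector p (Res p n)) (FractionRing (WittVector p (Res p n)))
  simpa [toRat] using congrArg (MvPowerSeries.coeff d) h

lemma sigRat_toRat (a : LT p n) : sigRat p n (toRat p n a) = toRat p n (sigLT p n a) := by
  have hc : (frobFrac p n).comp (algebraMap (WittVector p (Res p n)) _) =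
      (algebraMap (WittVector p (Res p n)) (FractionRing (WittVector p (Res p n)))).comp
        WittVector.frobenius := by
    ext x
    simp [frobFrac, IsFractionRing.lift_algebraMap]
  simp only [sigRat, sigLT, toRat, AlgHom.toRingHom_eq_coe, RingHom.coe_comp,
    RingHom.coe_coe, Function.comp_apply]
  rw [MvPowerSeries.map_map, hc, ← MvPowerSeries.map_map, MvPowerSeries.map_expand]

lemma wittP_ne_zero : (p : FractionRing (WittVector p (Res p n))) ≠ 0 := by
  rw [← map_natCast (algebraMap (WittVector p (Res p n)) (FractionRing (WittVector p (Res p n))))]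
  exact (map_ne_zero_iff _ (IsFractionRing.injective _ _)).2 (WittVector.p_nonzero p (Res p n))

lemma invP_mul : invP p n * (p : RatLT p n) = 1 := by
  rw [invP, ← map_natCast (MvPowerSeries.C : _ →+* RatLT p n), ← map_mul,
    inv_mul_cancel₀ (wittP_ne_zero p n), map_one]

lemma sigRat_invP : sigRat p n (invP p n) = invP p n := by
  simp [sigRat, invP, MvPowerSeries.expand_C, map_inv₀]

lemma dvd_sigLT_sub (a : LT p n) : (p : LT p n) ∣ sigLT p n a - a ^ p := by
  classical
  set π : LT p n →+* MvPowerSeries (Fin (n - 1)) (Res p n) :=
    MvPowerSeries.map WittVector.constantCoeff with hπ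
  have hfr : (WittVector.constantCoeff : WittVector p (Res p n) →+* _).comp WittVector.frobenius =
      (frobenius (Res p n) p).comp WittVector.constantCoeff := by
    ext x
    exact WittVector.coeff_frobenius_charP (p := p) x 0
  have h0 : π (sigLT p n a - a ^ p) = 0 := by
    rw [map_sub, map_pow, sub_eq_zero, hπ, ← MvPowerSeries.map_frobenius_expand p hp.out.ne_zero]
    simp only [sigLT, AlgHom.toRingHom_eq_coe, RingHom.coe_comp, RingHom.coe_coe,
      Function.comp_apply]
    rw [MvPowerSeries.map_expand, MvPowerSeries.map_map, hfr, ← MvPowerSeries.map_map,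
      MvPowerSeries.map_expand]
  have hc : ∀ d, (p : WittVector p (Res p n)) ∣ MvPowerSeries.coeff d (sigLT p n a - a ^ p) := by
    intro d
    rw [← Ideal.mem_span_singleton, WittVector.mem_span_p_iff_coeff_zero_eq_zero]
    have := congrArg (MvPowerSeries.coeff d) h0
    rw [hπ, MvPowerSeries.coeff_map, map_zero] at this
    exact this
  choose q hq using hc
  obtain ⟨Q, hQ⟩ : ∃ Q : LT p n, ∀ d, MvPowerSeries.coeff d Q = q d := ⟨q, fun _ => rfl⟩
  refine ⟨Q, MvPowerSeries.ext fun d => ?_⟩
  rw [hq d, ← map_natCast (MvPowerSeries.C : _ →+* LT p n) p, MvPowerSeries.coeff_C_mul, hQ]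

lemma sigLT_par {i : ℕ} (hi : 1 ≤ i) : sigLT p n (par p n i) = par p n i ^ p := by
  unfold par
  split_ifs with h1 h2
  · simp [sigLT]
  · omega
  · simp [sigLT]

lemma sigRat_par (k i : ℕ) :
    (sigRat p n)^[k] (toRat p n (par p n (i + 1))) = toRat p n (par p n (i + 1)) ^ p ^ k := by
  induction k with
  | zero => simp
  | succ k ih =>
    rw [Function.iterate_succ_apply', ih, map_pow, sigRat_toRat, sigLT_par p n (by omega), map_pow,
      ← pow_mul, ← pow_succ']

lemma sigRat_iterate_invP (k : ℕ) : (sigRat p n)^[k] (invP p n) = invP p n :=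
  Function.iterate_fixed (sigRat_invP p n) k

lemma logCoeff_succ (N : ℕ) : logCoeff p n (N + 1) = ∑ i ∈ Finset.range (N + 1),
    if i < n then invP p n * logCoeff p n (N - i) *
      (sigRat p n)^[N - i] (toRat p n (par p n (i + 1))) else 0 := by
  rw [logCoeff, Finset.mul_sum]
  rw [← Fin.sum_univ_eq_sum_range (fun i => if i < n then invP p n * logCoeff p n (N - i) *
      (sigRat p n)^[N - i] (toRat p n (par p n (i + 1))) else 0) (N + 1)]
  refine Finset.sum_congr rfl fun i _ => ?_
  rw [sigRat_par]
  split_ifs with h <;> ring

lemma map_sum_iterate {ι : Type*} (k : ℕ) (s : Finset ι) (g : ι → RatLT p n) :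
    (sigRat p n)^[k] (∑ i ∈ s, g i) = ∑ i ∈ s, (sigRat p n)^[k] (g i) := by
  simp only [← RingHom.coe_pow, map_sum]

/-- The functional-equation form of the recursion. -/
lemma logCoeff_succ' : ∀ N : ℕ, logCoeff p n (N + 1) = ∑ i ∈ Finset.range (N + 1),
    if i < n then invP p n * toRat p n (par p n (i + 1)) *
      (sigRat p n)^[i + 1] (logCoeff p n (N - i)) else 0 := by
  intro N
  induction N using Nat.strong_induction_on with
  | _ N ih =>
  set σ := sigRat p n with hσ
  set P := invP p n with hP
  set v : ℕ → RatLT p n := fun i => toRat p n (par p n (i + 1)) with hv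
  set h : ℕ → ℕ → RatLT p n := fun i j => if i < n ∧ j < n then
    P * P * v i * σ^[i + 1] (logCoeff p n (N - 1 - i - j)) * σ^[N - j] (v j) else 0 with hh
  have hone : logCoeff p n 0 = 1 := by rw [logCoeff]
  have hinner : ∀ j < N, (if j < n then P * logCoeff p n (N - j) * σ^[N - j] (v j) else 0) =
      ∑ i ∈ Finset.range (N - j), h i j := by
    intro j hj
    obtain ⟨M, hM⟩ : ∃ M, N - j = M + 1 := ⟨N - j - 1, by omega⟩
    by_cases hjn : j < n
    · rw [if_pos hjn, hM, ih M (by omega), Finset.mul_sum, Finset.sum_mul]
      refine Finset.sum_congr rfl fun i hi => ?_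
      have e1 : N - 1 - i - j = M - i := by omega
      by_cases hin : i < n
      · simp only [hh, if_pos (And.intro hin hjn), if_pos hin, e1, hM, hv, hσ, hP]
        ring
      · simp [hh, hin]
    · rw [if_neg hjn]
      symm
      exact Finset.sum_eq_zero fun i _ => by simp [hh, hjn]
  have houter : ∀ i < N, (if i < n then P * v i * σ^[i + 1] (logCoeff p n (N - i)) else 0) =
      ∑ j ∈ Finset.range (N - i), h i j := by
    intro i hi
    obtain ⟨M, hM⟩ : ∃ M, N - i = M + 1 := ⟨N - i - 1, by omega⟩
    by_cases hin : i < n
    · rw [if_pos hin, hM, logCoeff_succ, hσ, map_sum_iterate, Finset.mul_sum]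
      refine Finset.sum_congr rfl fun j hj => ?_
      have hj' : j ≤ M := by simpa [Nat.lt_succ_iff] using hj
      have e1 : N - 1 - i - j = M - j := by omega
      by_cases hjn : j < n
      · simp only [hh, if_pos (And.intro hin hjn), if_pos hjn, e1, hσ, hP, hv]
        rw [iterate_map_mul, iterate_map_mul, sigRat_iterate_invP, ← Function.iterate_add_apply,
          show i + 1 + (M - j) = N - j by omega]
        ring
      · simp [hh, hjn]
    · rw [if_neg hin]
      symm
      exact Finset.sum_eq_zero fun j _ => by simp [hh, hin]
  rw [logCoeff_succ, Finset.sum_range_succ, Finset.sum_range_succ, Nat.sub_self, hone]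
  congr 1
  · rw [Finset.sum_congr rfl fun j hj => hinner j (Finset.mem_range.1 hj),
      Finset.sum_congr rfl fun i hi => houter i (Finset.mem_range.1 hi)]
    refine Finset.sum_comm' ?_
    intro i j
    simp only [Finset.mem_range]
    omega
  · simp only [Function.iterate_zero, id_eq, iterate_map_one, mul_one, hP]

/-- The functional-equation data of the universal logarithm. -/
noncomputable def funEqData : Law.FunEqData (LT p n) (RatLT p n) where
  p := p
  hp := hp.out
  inc := toRat p n
  inc_injective := toRat_injective p n
  sigA := sigLT p n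
  sigK := sigRat p n
  sig_comm := sigRat_toRat p n
  frob := dvd_sigLT_sub p n
  pinv := invP p n
  pinv_mul := invP_mul p n
  n := n
  u := par p n
  m := logCoeff p n
  m_zero := by rw [logCoeff]
  m_succ := fun N => by
    rw [logCoeff_succ', ← Fin.sum_univ_eq_sum_range]

lemma funEqData_log : (funEqData p n).log = logSeries p n := rfl

end Vale.Agent.P217
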