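/-
P217, block A: existence, uniqueness and commutativity of Hazewinkel's law and its `p`-series,
from the functional equation lemma.
-/
import Vale.Agent.P217.Spec
import Vale.Agent.P217.LawFacts
import Vale.Agent.P217.Law.LT

namespace Vale.Agent.P217.Law

open MvPowerSeries

variable {A K : Type} [CommRing A] [CommRing K] (D : FunEqData A K) {τ : Type}

lemma log_coeff_one : PowerSeries.coeff 1 D.log = 1 := by
  simp [FunEqData.log, D.m_zero]

lemma log_constantCoeff : PowerSeries.constantCoeff D.log = 0 := by
  rw [← PowerSeries.coeff_zero_eq_constantCoeff_apply, FunEqData.log, PowerSeries.coeff_mk,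
    if_neg]
  simp

/-- The compositional inverse of the logarithm. -/
noncomputable def FunEqData.exp : PowerSeries K :=
  D.log.substInvOfIsUnit (by rw [log_coeff_one D]; exact isUnit_one)

lemma exp_constantCoeff : PowerSeries.constantCoeff D.exp = 0 :=
  PowerSeries.constantCoeff_substInvOfIsUnit _ _

lemma log_exp {g : MvPowerSeries τ K} (hg : constantCoeff g = 0) :
    PowerSeries.subst (PowerSeries.subst g D.exp) D.log = g := by
  have h1 : PowerSeries.HasSubst g := PowerSeries.HasSubst.of_constantCoeff_zero hg
  have h2 : PowerSeries.HasSubst D.exp :=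
    PowerSeries.HasSubst.of_constantCoeff_zero' (exp_constantCoeff D)
  rw [← PowerSeries.subst_comp_subst_apply h2 h1, FunEqData.exp,
    PowerSeries.subst_substInvOfIsUnit_right _ (log_constantCoeff D), PowerSeries.subst_X h1]

lemma exp_log {a : MvPowerSeries τ K} (ha : constantCoeff a = 0) :
    PowerSeries.subst (PowerSeries.subst a D.log) D.exp = a := by
  have h1 : PowerSeries.HasSubst a := PowerSeries.HasSubst.of_constantCoeff_zero ha
  have h2 : PowerSeries.HasSubst D.log :=
    PowerSeries.HasSubst.of_constantCoeff_zero' (log_constantCoeff D)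
  rw [← PowerSeries.subst_comp_subst_apply h2 h1, FunEqData.exp,
    PowerSeries.subst_substInvOfIsUnit_left _ (log_constantCoeff D), PowerSeries.subst_X h1]

lemma log_injective {a b : MvPowerSeries τ K} (ha : constantCoeff a = 0)
    (hb : constantCoeff b = 0)
    (h : PowerSeries.subst a D.log = PowerSeries.subst b D.log) : a = b := by
  rw [← exp_log D ha, h, exp_log D hb]

lemma Integral.add {a b : MvPowerSeries τ K} (ha : D.Integral a) (hb : D.Integral b) :
    D.Integral (a + b) := fun d => by
  rw [map_add]; exact add_mem (ha d) (hb d)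

lemma integral_map (a : MvPowerSeries τ A) : D.Integral (MvPowerSeries.map D.inc a) :=
  fun d => ⟨_, (MvPowerSeries.coeff_map D.inc d a).symm⟩

lemma integral_lift {a : MvPowerSeries τ K} (ha : D.Integral a) :
    ∃ b : MvPowerSeries τ A, MvPowerSeries.map D.inc b = a := by
  choose c hc using ha
  exact ⟨c, MvPowerSeries.ext fun d => hc d⟩

lemma defect_add (a b : MvPowerSeries τ K) : D.defect (a + b) = D.defect a + D.defect b := by
  simp only [FunEqData.defect, iterate_map_add, mul_add, Finset.sum_add_distrib]
  ring

lemma defect_natCast_mul (k : ℕ) (a : MvPowerSeries τ K) :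
    D.defect ((k : MvPowerSeries τ K) * a) = (k : MvPowerSeries τ K) * D.defect a := by
  have h : ∀ i, (D.frobPS τ)^[i] (k : MvPowerSeries τ K) = k := fun i =>
    Function.iterate_fixed (map_natCast _ k) i
  simp only [FunEqData.defect, iterate_map_mul, h, mul_sub, Finset.mul_sum]
  congr 1
  exact Finset.sum_congr rfl fun i _ => by ring

lemma defect_log_X [Finite τ] (hL : D.LogStatement) (s : τ) :
    D.Integral (D.defect (PowerSeries.subst (X s : MvPowerSeries τ K) D.log)) := by
  classical
  refine hL τ _ (constantCoeff_X s) fun d => ?_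
  rw [coeff_X]
  split_ifs
  · exact one_mem _
  · exact zero_mem _

lemma coeff_subst_of_degree_one {S : Type} [CommRing S] (L : PowerSeries S)
    (F : MvPowerSeries τ S) (hF : constantCoeff F = 0) {d : τ →₀ ℕ} (hd : d.degree = 1) :
    coeff d (PowerSeries.subst F L) = PowerSeries.coeff 1 L * coeff d F := by
  have hd0 : d ≠ 0 := fun h => by simp [h] at hd
  rw [PowerSeries.coeff_subst (PowerSeries.HasSubst.of_constantCoeff_zero hF),
    finsum_eq_single _ 1]
  · simp
  · intro b hb
    rcases Nat.eq_zero_or_pos b with rfl | hb0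
    · classical simp [coeff_one, hd0]
    · have h2 : coeff d (F ^ b) = 0 := by
        apply coeff_of_lt_order
        refine lt_of_lt_of_le ?_ (le_order_pow_of_constantCoeff_eq_zero b hF)
        rw [hd]
        exact_mod_cast (by omega : 1 < b)
      simp [h2]

lemma subst_pair_log {σ : Type} (f g : MvPowerSeries σ K) (hf : constantCoeff f = 0)
    (hg : constantCoeff g = 0) (F : MvPowerSeries (Fin 2) K) (hF0 : constantCoeff F = 0)
    (hF : PowerSeries.subst F D.log = PowerSeries.subst (X (0 : Fin 2)) D.log +
      PowerSeries.subst (X (1 : Fin 2)) D.log) :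
    PowerSeries.subst (MvPowerSeries.subst ![f, g] F) D.log =
      PowerSeries.subst f D.log + PowerSeries.subst g D.log := by
  have hp : MvPowerSeries.HasSubst ![f, g] :=
    hasSubst_of_constantCoeff_zero fun i => by fin_cases i <;> simp [hf, hg]
  have hF' : MvPowerSeries.HasSubst (fun _ : Unit => F) :=
    (PowerSeries.HasSubst.of_constantCoeff_zero hF0).const
  have hX : ∀ i : Fin 2, MvPowerSeries.HasSubst (fun _ : Unit => (X i : MvPowerSeries (Fin 2) K)) :=
    fun i => (PowerSeries.HasSubst.of_constantCoeff_zero (constantCoeff_X i)).const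
  calc PowerSeries.subst (MvPowerSeries.subst ![f, g] F) D.log
      = MvPowerSeries.subst ![f, g] (PowerSeries.subst F D.log) := by
        rw [PowerSeries.subst_def, PowerSeries.subst_def,
          MvPowerSeries.subst_comp_subst_apply hF' hp]
    _ = _ := by
        rw [hF, MvPowerSeries.subst_add hp, PowerSeries.subst_def, PowerSeries.subst_def,
          MvPowerSeries.subst_comp_subst_apply (hX 0) hp,
          MvPowerSeries.subst_comp_subst_apply (hX 1) hp]
        simp [MvPowerSeries.subst_X hp, PowerSeries.subst_def]

lemma constantCoeff_pair {σ S : Type} [CommRing S] {f g : MvPowerSeries σ S}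
    (hf : constantCoeff f = 0) (hg : constantCoeff g = 0) {F : MvPowerSeries (Fin 2) S}
    (hF0 : constantCoeff F = 0) : constantCoeff (MvPowerSeries.subst ![f, g] F) = 0 :=
  MvPowerSeries.constantCoeff_subst_eq_zero
    (hasSubst_of_constantCoeff_zero fun i => by fin_cases i <;> simp [hf, hg])
    (fun i => by fin_cases i <;> simp [hf, hg]) hF0

end Vale.Agent.P217.Law

namespace Vale.Agent.P217

open MvPowerSeries

variable (p n : ℕ) [Fact p.Prime]

lemma logSeries_constantCoeff : PowerSeries.constantCoeff (logSeries p n) = 0 :=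
  Law.log_constantCoeff (funEqData p n)

lemma logSeries_coeff_one : PowerSeries.coeff 1 (logSeries p n) = 1 :=
  Law.log_coeff_one (funEqData p n)

lemma toRatPS_injective (τ : Type) :
    Function.Injective (MvPowerSeries.map (σ := τ) (toRat p n)) := by
  intro a b h
  refine MvPowerSeries.ext fun d => toRat_injective p n ?_
  simpa only [MvPowerSeries.coeff_map] using congrArg (coeff d) h

/-- Cancellation of the logarithm over `LT`. -/
lemma eq_of_log_eq {τ : Type} {a b : MvPowerSeries τ (LT p n)} (ha : constantCoeff a = 0)
    (hb : constantCoeff b = 0)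
    (h : PowerSeries.subst (MvPowerSeries.map (toRat p n) a) (logSeries p n) =
      PowerSeries.subst (MvPowerSeries.map (toRat p n) b) (logSeries p n)) : a = b := by
  apply toRatPS_injective p n τ
  refine Law.log_injective (funEqData p n) ?_ ?_ h
  · rw [MvPowerSeries.constantCoeff_map, ha, map_zero]
  · rw [MvPowerSeries.constantCoeff_map, hb, map_zero]

variable {p n}

/-- The logarithm is additive on the universal law. -/
lemma IsUniversalLaw.log_add {F : FormalGroup (LT p n)} (hF : IsUniversalLaw p n F) {σ : Type}
    {f g : MvPowerSeries σ (LT p n)} (hf : constantCoeff f = 0) (hg : constantCoeff g = 0) :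
    PowerSeries.subst (MvPowerSeries.map (toRat p n) (MvPowerSeries.subst ![f, g] F.toPowerSeries))
        (logSeries p n) =
      PowerSeries.subst (MvPowerSeries.map (toRat p n) f) (logSeries p n) +
        PowerSeries.subst (MvPowerSeries.map (toRat p n) g) (logSeries p n) := by
  rw [MvPowerSeries.map_subst
    (hasSubst_of_constantCoeff_zero fun i => by fin_cases i <;> simp [hf, hg])]
  have e : (fun i => MvPowerSeries.map (toRat p n) (![f, g] i)) =
      ![MvPowerSeries.map (toRat p n) f, MvPowerSeries.map (toRat p n) g] := by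
    funext i; fin_cases i <;> simp
  rw [e]
  refine Law.subst_pair_log (funEqData p n) _ _ ?_ ?_ _ ?_ hF
  · rw [MvPowerSeries.constantCoeff_map, hf, map_zero]
  · rw [MvPowerSeries.constantCoeff_map, hg, map_zero]
  · rw [MvPowerSeries.constantCoeff_map, F.zero_constantCoeff, map_zero]

variable (p n)

theorem universalLaw_unique {F F' : FormalGroup (LT p n)} (hF : IsUniversalLaw p n F)
    (hF' : IsUniversalLaw p n F') : F' = F :=
  FormalGroup.ext (eq_of_log_eq p n F'.zero_constantCoeff F.zero_constantCoeff (hF'.trans hF.symm))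

theorem universalLaw_exists (hI : (funEqData p n).InvLogStatement)
    (hL : (funEqData p n).LogStatement) : ∃ F : FormalGroup (LT p n), IsUniversalLaw p n F := by
  classical
  let D := funEqData p n
  set g : MvPowerSeries (Fin 2) (RatLT p n) := PowerSeries.subst (X 0) D.log +
    PowerSeries.subst (X 1) D.log with hg
  have hg0 : constantCoeff g = 0 := by
    rw [hg, map_add, PowerSeries.constantCoeff_subst_eq_zero (constantCoeff_X _) _
      (Law.log_constantCoeff D), PowerSeries.constantCoeff_subst_eq_zero (constantCoeff_X _) _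
      (Law.log_constantCoeff D), add_zero]
  set G : MvPowerSeries (Fin 2) (RatLT p n) := PowerSeries.subst g D.exp with hG
  have hG0 : constantCoeff G = 0 :=
    PowerSeries.constantCoeff_subst_eq_zero hg0 _ (Law.exp_constantCoeff D)
  have hGL : PowerSeries.subst G D.log = g := Law.log_exp D hg0
  have hint : D.Integral G := hI (Fin 2) G hG0 (by
    rw [hGL, hg, Law.defect_add]
    exact Law.Integral.add D (Law.defect_log_X D hL 0) (Law.defect_log_X D hL 1))
  obtain ⟨F, hF⟩ := Law.integral_lift D hint
  have hF' : MvPowerSeries.map (toRat p n) F = G := hF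
  have hlin : ∀ i : Fin 2, coeff (Finsupp.single i 1) F = 1 := by
    intro i
    apply toRat_injective p n
    have h1 := congrArg (coeff (Finsupp.single i 1)) hGL
    rw [Law.coeff_subst_of_degree_one _ _ hG0 (Finsupp.degree_single _ _), Law.log_coeff_one D,
      one_mul, hg, map_add, PowerSeries.coeff_subst_single, PowerSeries.coeff_subst_single] at h1
    rw [← MvPowerSeries.coeff_map, hF', h1, map_one (toRat p n)]
    fin_cases i <;>
      simp [Law.log_coeff_one D]
  have h0 : constantCoeff F = 0 := by
    apply toRat_injective p n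
    rw [map_zero, ← MvPowerSeries.constantCoeff_map, hF', hG0]
  have hlaw : PowerSeries.subst (MvPowerSeries.map (toRat p n) F) D.log = g := by rw [hF', hGL]
  have hadd : ∀ a b : MvPowerSeries (Fin 3) (LT p n), constantCoeff a = 0 → constantCoeff b = 0 →
      PowerSeries.subst (MvPowerSeries.map (toRat p n) (MvPowerSeries.subst ![a, b] F)) D.log =
      PowerSeries.subst (MvPowerSeries.map (toRat p n) a) D.log +
        PowerSeries.subst (MvPowerSeries.map (toRat p n) b) D.log := by
    intro a b ha hb
    rw [MvPowerSeries.map_subst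
      (hasSubst_of_constantCoeff_zero fun i => by fin_cases i <;> simp [ha, hb])]
    have e : (fun i => MvPowerSeries.map (toRat p n) (![a, b] i)) =
        ![MvPowerSeries.map (toRat p n) a, MvPowerSeries.map (toRat p n) b] := by
      funext i; fin_cases i <;> simp
    rw [e]
    refine Law.subst_pair_log D _ _ ?_ ?_ _ ?_ hlaw
    · rw [MvPowerSeries.constantCoeff_map, ha, map_zero]
    · rw [MvPowerSeries.constantCoeff_map, hb, map_zero]
    · rw [MvPowerSeries.constantCoeff_map, h0, map_zero]
  have hx : ∀ i : Fin 3, constantCoeff (X i : MvPowerSeries (Fin 3) (LT p n)) = 0 :=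
    constantCoeff_X
  refine ⟨⟨F, h0, hlin 0, hlin 1, ?_⟩, hlaw⟩
  have h01 := Law.constantCoeff_pair (hx 0) (hx 1) h0
  have h12 := Law.constantCoeff_pair (hx 1) (hx 2) h0
  refine eq_of_log_eq p n (Law.constantCoeff_pair h01 (hx 2) h0)
    (Law.constantCoeff_pair (hx 0) h12 h0) ?_
  change PowerSeries.subst _ D.log = PowerSeries.subst _ D.log
  rw [hadd _ _ h01 (hx 2), hadd _ _ (hx 0) (hx 1), hadd _ _ (hx 0) h12, hadd _ _ (hx 1) (hx 2),
    add_assoc]

theorem law_of_funEq (hI : (funEqData p n).InvLogStatement)
    (hL : (funEqData p n).LogStatement) : LawStatement p n := by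
  obtain ⟨F, hF⟩ := universalLaw_exists p n hI hL
  exact ⟨F, hF, fun F' hF' => universalLaw_unique p n hF hF'⟩

theorem IsUniversalLaw.swap {F : FormalGroup (LT p n)} (hF : IsUniversalLaw p n F) :
    MvPowerSeries.subst ![X 1, X 0] F.toPowerSeries = F.toPowerSeries := by
  refine eq_of_log_eq p n (Law.constantCoeff_pair (constantCoeff_X _) (constantCoeff_X _)
    F.zero_constantCoeff) F.zero_constantCoeff ?_
  rw [hF.log_add (constantCoeff_X _) (constantCoeff_X _), hF, add_comm]
  simp only [MvPowerSeries.map_X]

lemma isPSeries_unique {e e' : PowerSeries (LT p n)} (he : IsPSeries p n e)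
    (he' : IsPSeries p n e') : e = e' :=
  eq_of_log_eq p n he.1 he'.1 (he.2.trans he'.2.symm)

theorem isPSeries_exists (hI : (funEqData p n).InvLogStatement)
    (hL : (funEqData p n).LogStatement) : ∃ e, IsPSeries p n e := by
  classical
  let D := funEqData p n
  set g : PowerSeries (RatLT p n) := PowerSeries.C (p : RatLT p n) * D.log with hg
  have hg0 : PowerSeries.constantCoeff g = 0 := by rw [hg, map_mul, Law.log_constantCoeff D,
    mul_zero]
  set G : PowerSeries (RatLT p n) := PowerSeries.subst g D.exp with hG
  have hG0 : PowerSeries.constantCoeff G = 0 :=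
    PowerSeries.constantCoeff_subst_eq_zero hg0 _ (Law.exp_constantCoeff D)
  have hGL : PowerSeries.subst G D.log = g := Law.log_exp D hg0
  have hint : D.Integral G := hI Unit G hG0 (by
    rw [hGL, hg, map_natCast]
    have hX := Law.defect_log_X D hL (() : Unit)
    rw [show (X () : MvPowerSeries Unit (RatLT p n)) = PowerSeries.X from rfl,
      PowerSeries.X_subst] at hX
    rw [show D.defect ((p : PowerSeries (RatLT p n)) * D.log) =
      (p : MvPowerSeries Unit (RatLT p n)) * D.defect D.log from Law.defect_natCast_mul D p D.log]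
    intro d
    rw [← map_natCast (MvPowerSeries.C : _ →+* MvPowerSeries Unit (RatLT p n)),
      MvPowerSeries.coeff_C_mul]
    exact mul_mem (natCast_mem _ _) (hX d))
  obtain ⟨e, he⟩ := Law.integral_lift D hint
  refine ⟨e, ?_, ?_⟩
  · apply toRat_injective p n
    rw [map_zero, show toRat p n (PowerSeries.constantCoeff e) =
      PowerSeries.constantCoeff (MvPowerSeries.map (toRat p n) e : PowerSeries (RatLT p n)) from
      (MvPowerSeries.constantCoeff_map (toRat p n) e).symm]
    rw [show (MvPowerSeries.map (toRat p n) e : PowerSeries (RatLT p n)) = G from he, hG0]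
  · change PowerSeries.subst (MvPowerSeries.map (toRat p n) e) D.log = g
    rw [show MvPowerSeries.map (toRat p n) e = G from he, hGL]

theorem IsPSeries.isHom {F : FormalGroup (LT p n)} (hF : IsUniversalLaw p n F)
    {e : PowerSeries (LT p n)} (he : IsPSeries p n e) : IsHom F F e := by
  have he0 : constantCoeff (e : MvPowerSeries Unit (LT p n)) = 0 := he.1
  have hcx : ∀ i : Fin 2, constantCoeff
      (PowerSeries.subst (X i) e : MvPowerSeries (Fin 2) (LT p n)) = 0 :=
    fun i => PowerSeries.constantCoeff_subst_eq_zero (constantCoeff_X i) e he.1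
  have hkey : ∀ (a : MvPowerSeries (Fin 2) (LT p n)), constantCoeff a = 0 →
      PowerSeries.subst (MvPowerSeries.map (toRat p n) (PowerSeries.subst a e)) (logSeries p n) =
        (p : MvPowerSeries (Fin 2) (RatLT p n)) *
          PowerSeries.subst (MvPowerSeries.map (toRat p n) a) (logSeries p n) := by
    intro a ha
    have ha' : PowerSeries.HasSubst (MvPowerSeries.map (toRat p n) a) :=
      PowerSeries.HasSubst.of_constantCoeff_zero
        (by rw [MvPowerSeries.constantCoeff_map, ha, map_zero])
    have he' : PowerSeries.HasSubst (PowerSeries.map (toRat p n) e) :=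
      PowerSeries.HasSubst.of_constantCoeff_zero'
        (by rw [← PowerSeries.coeff_zero_eq_constantCoeff_apply, PowerSeries.coeff_map,
          PowerSeries.coeff_zero_eq_constantCoeff_apply, he.1, map_zero])
    rw [PowerSeries.map_subst (PowerSeries.HasSubst.of_constantCoeff_zero ha),
      ← PowerSeries.subst_comp_subst_apply he' ha', he.2, PowerSeries.subst_mul ha',
      PowerSeries.subst_C, map_natCast]
  refine ⟨he.1, eq_of_log_eq p n (PowerSeries.constantCoeff_subst_eq_zero F.zero_constantCoeff e he.1)
    (Law.constantCoeff_pair (hcx 0) (hcx 1) F.zero_constantCoeff) ?_⟩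
  rw [hkey _ F.zero_constantCoeff, hF.log_add (hcx 0) (hcx 1), hkey _ (constantCoeff_X _),
    hkey _ (constantCoeff_X _), hF]
  simp only [MvPowerSeries.map_X]
  ring

theorem pSeries_of_funEq (hI : (funEqData p n).InvLogStatement)
    (hL : (funEqData p n).LogStatement) : PSeriesStatement p n := by
  intro F hF
  obtain ⟨e, he⟩ := isPSeries_exists p n hI hL
  exact ⟨e, he, he.isHom p n hF⟩

end Vale.Agent.P217
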