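import Vale.Agent.P217.Law.Data

/-!
P217: Hazewinkel's functional-equation lemma for logarithms supported on the powers of `p`.
-/

noncomputable section

namespace Vale.Agent.P217.FunEq

open MvPowerSeries

set_option linter.unusedSectionVars false

/-- A ring `R` inside a ring `S` in which `p` is invertible, with a compatible Frobenius lift. -/
structure Lift (p : ℕ) (R S : Type*) [CommRing R] [CommRing S] where
  /-- the inclusion -/
  ι : R →+* S
  inj : Function.Injective ι
  /-- the Frobenius lift -/
  σ : R →+* R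
  /-- its extension -/
  σS : S →+* S
  comm : ∀ a, σS (ι a) = ι (σ a)
  frob : ∀ a, (p : R) ∣ σ a - a ^ p
  /-- the inverse of `p` -/
  invp : S
  mul_invp : (p : S) * invp = 1

variable {p : ℕ} [hp : Fact p.Prime] {R S : Type*} [CommRing R] [CommRing S] (L : Lift p R S)

/-- The coefficients defined by `p m_N = Σ_{1 ≤ i ≤ N} t_i σ^i(m_{N-i})`. -/
def coe (t : ℕ → R) : ℕ → S
  | 0 => 1
  | N + 1 => L.invp * ∑ i : Fin (N + 1), L.ι (t (i.val + 1)) * L.σS^[i.val + 1] (coe t (N - i.val))
  decreasing_by all_goals omega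

@[simp] lemma coe_zero (t : ℕ → R) : coe L t 0 = 1 := by rw [coe]

lemma coe_succ (t : ℕ → R) (N : ℕ) :
    coe L t (N + 1) =
      L.invp * ∑ i ∈ Finset.range (N + 1), L.ι (t (i + 1)) * L.σS^[i + 1] (coe L t (N - i)) := by
  rw [coe, Fin.sum_univ_eq_sum_range fun i => L.ι (t (i + 1)) * L.σS^[i + 1] (coe L t (N - i))]

lemma iterate_comm (i : ℕ) (a : R) : L.σS^[i] (L.ι a) = L.ι (L.σ^[i] a) := by
  induction i generalizing a with
  | zero => rfl
  | succ i ih => rw [Function.iterate_succ_apply, Function.iterate_succ_apply, L.comm, ih]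

/-- `σ` iterated. -/
def sig (i : ℕ) : R →+* R := L.σ ^ i

/-- `σS` iterated. -/
def sigS (i : ℕ) : S →+* S := L.σS ^ i

lemma sig_apply (i : ℕ) (a : R) : sig L i a = L.σ^[i] a := by
  rw [sig, RingHom.coe_pow]

lemma sigS_apply (i : ℕ) (a : S) : sigS L i a = L.σS^[i] a := by
  rw [sigS, RingHom.coe_pow]

lemma sigS_ι (i : ℕ) (a : R) : sigS L i (L.ι a) = L.ι (sig L i a) := by
  rw [sigS_apply, sig_apply, iterate_comm]

lemma sigS_range {x : S} (i : ℕ) (hx : x ∈ L.ι.range) : sigS L i x ∈ L.ι.range := by
  obtain ⟨a, rfl⟩ := hx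
  exact ⟨_, (sigS_ι L i a).symm⟩

/-- The denominators of the coefficients. -/
lemma pow_mul_coe_mem (t : ℕ → R) (N : ℕ) : (p : S) ^ N * coe L t N ∈ L.ι.range := by
  induction N using Nat.strong_induction_on with
  | _ N ih =>
    cases N with
    | zero => exact ⟨1, by simp⟩
    | succ N =>
      rw [coe_succ, pow_succ, mul_assoc, ← mul_assoc (p : S) L.invp, L.mul_invp, one_mul,
        Finset.mul_sum]
      refine sum_mem fun i hi => ?_
      have h1 := sigS_range L (i + 1) (ih (N - i) (by omega))
      rw [map_mul, map_pow, map_natCast, sigS_apply] at h1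
      have e : (p : S) ^ N * (L.ι (t (i + 1)) * L.σS^[i + 1] (coe L t (N - i))) =
          L.ι ((p : R) ^ i * t (i + 1)) * ((p : S) ^ (N - i) * L.σS^[i + 1] (coe L t (N - i))) := by
        have hN : N = i + (N - i) := by have := Finset.mem_range.1 hi; omega
        conv_lhs => rw [hN, pow_add]
        rw [map_mul, map_pow, map_natCast]
        rw [← hN]
        ring
      rw [e]
      exact mul_mem ⟨_, rfl⟩ h1

/-- The mirrored recursion `p m_N = Σ_{1 ≤ i ≤ N} m_{N-i} σ^{N-i}(t_i)`. -/
lemma coe_succ' (t : ℕ → R) (N : ℕ) :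
    coe L t (N + 1) =
      L.invp * ∑ i ∈ Finset.range (N + 1), coe L t (N - i) * L.ι (L.σ^[N - i] (t (i + 1))) := by
  induction N using Nat.strong_induction_on with
  | _ N ih =>
    have hinv : ∀ j, L.σS^[j] L.invp = L.invp := by
      intro j
      induction j with
      | zero => rfl
      | succ j hj =>
        rw [Function.iterate_succ_apply', hj]
        calc L.σS L.invp = ((p : S) * L.invp) * L.σS L.invp := by rw [L.mul_invp, one_mul]
          _ = L.invp * L.σS ((p : S) * L.invp) := by rw [map_mul, map_natCast]; ring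
          _ = _ := by rw [L.mul_invp, map_one, mul_one]
    rw [coe_succ]
    congr 1
    -- expand both sums to the same double sum
    rw [Finset.sum_range_succ, Finset.sum_range_succ (fun i => coe L t (N - i) * _)]
    congr 1
    swap
    · rw [Nat.sub_self, coe_zero, Function.iterate_zero_apply, one_mul, ← sigS_apply, map_one,
        mul_one]
    have lhs : ∀ j ∈ Finset.range N, L.ι (t (j + 1)) * L.σS^[j + 1] (coe L t (N - j)) =
        ∑ i ∈ Finset.range (N - j), L.invp * (L.ι (t (j + 1)) *
          L.σS^[j + 1] (coe L t (N - j - 1 - i)) * L.ι (L.σ^[N - i] (t (i + 1)))) := by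
      intro j hj
      have hj' := Finset.mem_range.1 hj
      obtain ⟨M, hM⟩ : ∃ M, N - j = M + 1 := ⟨N - j - 1, by omega⟩
      rw [hM, ih M (by omega), ← sigS_apply, map_mul, map_sum, sigS_apply L _ L.invp, hinv,
        Finset.mul_sum, Finset.mul_sum]
      refine Finset.sum_congr rfl fun i hi => ?_
      have hi' := Finset.mem_range.1 hi
      rw [map_mul, sigS_apply, sigS_apply, iterate_comm, ← Function.iterate_add_apply,
        show M + 1 - 1 - i = M - i by omega, show j + 1 + (M - i) = N - i by omega]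
      ring
    have rhs : ∀ i ∈ Finset.range N, coe L t (N - i) * L.ι (L.σ^[N - i] (t (i + 1))) =
        ∑ j ∈ Finset.range (N - i), L.invp * (L.ι (t (j + 1)) *
          L.σS^[j + 1] (coe L t (N - j - 1 - i)) * L.ι (L.σ^[N - i] (t (i + 1)))) := by
      intro i hi
      have hi' := Finset.mem_range.1 hi
      obtain ⟨M, hM⟩ : ∃ M, N - i = M + 1 := ⟨N - i - 1, by omega⟩
      rw [hM, coe_succ, Finset.mul_sum, Finset.sum_mul]
      refine Finset.sum_congr rfl fun j hj => ?_
      have hj' := Finset.mem_range.1 hj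
      rw [show N - j - 1 - i = M - j by omega]
      ring
    rw [Finset.sum_congr rfl lhs, Finset.sum_congr rfl rhs]
    refine Finset.sum_comm' fun x y => ?_
    simp only [Finset.mem_range]
    omega

/-- The logarithm `Σ_N m_N x^{p^N}`. -/
def logS (t : ℕ → R) : PowerSeries S :=
  PowerSeries.mk fun b => if p ^ Nat.log p b = b then coe L t (Nat.log p b) else 0

lemma coeff_logS_pow (t : ℕ → R) (N : ℕ) :
    PowerSeries.coeff (p ^ N) (logS L t) = coe L t N := by
  simp [logS, Nat.log_pow hp.out.one_lt]

lemma constantCoeff_logS (t : ℕ → R) : PowerSeries.constantCoeff (logS L t) = 0 := by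
  rw [← PowerSeries.coeff_zero_eq_constantCoeff_apply]
  simp [logS]

lemma coeff_one_logS (t : ℕ → R) : PowerSeries.coeff 1 (logS L t) = 1 := by
  simpa using coeff_logS_pow L t 0

variable {τ : Type*}

lemma coeff_pow_eq_zero {F : MvPowerSeries τ S} (hF : constantCoeff F = 0) {b : ℕ}
    {d : τ →₀ ℕ} (h : d.degree < b) : coeff d (F ^ b) = 0 :=
  coeff_of_lt_order (lt_of_lt_of_le (by exact_mod_cast h)
    (le_order_pow_of_constantCoeff_eq_zero b hF))

lemma hasSubst_of {F : MvPowerSeries τ S} (hF : constantCoeff F = 0) : PowerSeries.HasSubst F :=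
  PowerSeries.HasSubst.of_constantCoeff_zero hF

lemma coeff_subst_logS (t : ℕ → R) {F : MvPowerSeries τ S} (hF : constantCoeff F = 0)
    (d : τ →₀ ℕ) {M : ℕ} (hM : d.degree < p ^ M) :
    coeff d ((logS L t).subst F) = ∑ N ∈ Finset.range M, coe L t N * coeff d (F ^ p ^ N) := by
  classical
  rw [PowerSeries.coeff_subst (hasSubst_of hF),
    finsum_eq_sum_of_support_subset (s := (Finset.range M).image (p ^ ·))]
  · rw [Finset.sum_image fun a _ b _ h => Nat.pow_right_injective hp.out.two_le h]
    exact Finset.sum_congr rfl fun N _ => by rw [coeff_logS_pow, smul_eq_mul]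
  · intro b hb
    simp only [Function.mem_support] at hb
    simp only [Finset.coe_image, Set.mem_image, Finset.coe_range, Set.mem_Iio]
    have hb0 : p ^ Nat.log p b = b := by
      by_contra hne
      exact hb (by simp [logS, hne])
    refine ⟨Nat.log p b, ?_, hb0⟩
    by_contra hlt
    refine hb ?_
    rw [coeff_pow_eq_zero hF, smul_zero]
    calc d.degree < p ^ M := hM
      _ ≤ p ^ Nat.log p b := Nat.pow_le_pow_right hp.out.pos (by omega)
      _ = b := hb0

/-- `pR` is detected coefficientwise. -/
lemma natCast_dvd_iff {A : Type*} [CommRing A] (q : ℕ) (f : MvPowerSeries τ A) :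
    (q : MvPowerSeries τ A) ∣ f ↔ ∀ d, (q : A) ∣ coeff d f := by
  have hq : (q : MvPowerSeries τ A) = C (q : A) := (map_natCast C q).symm
  constructor
  · rintro ⟨g, rfl⟩ d
    exact ⟨coeff d g, by rw [hq, coeff_C_mul]⟩
  · intro h
    choose g hg using h
    let g' : MvPowerSeries τ A := g
    refine ⟨g', MvPowerSeries.ext fun d => ?_⟩
    rw [hq, coeff_C_mul]
    exact hg d

lemma dvd_expand_map {A : Type*} [CommRing A] {q k : ℕ} (hk : k ≠ 0) (φ : A →+* A)
    {f : MvPowerSeries τ A} (h : (q : MvPowerSeries τ A) ∣ f) :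
    (q : MvPowerSeries τ A) ∣ expand k hk (map φ f) := by
  obtain ⟨g, rfl⟩ := h
  rw [map_mul, map_mul, map_natCast, map_natCast]
  exact dvd_mul_right _ _

/-- `G^p ≡ σ G (x^p)` modulo `p`. -/
lemma pow_prime_congr (G : MvPowerSeries τ R) :
    (p : MvPowerSeries τ R) ∣ G ^ p - expand p hp.out.ne_zero (map L.σ G) := by
  classical
  rw [natCast_dvd_iff]
  intro d
  by_cases hu : IsUnit (p : R)
  · exact hu.dvd
  let I : Ideal R := Ideal.span {(p : R)}
  have : Nontrivial (R ⧸ I) := Ideal.Quotient.nontrivial_iff.2 fun h =>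
    hu (Ideal.span_singleton_eq_top.1 h)
  have : CharP (R ⧸ I) p := by
    refine CharP.of_ringHom_of_ne_zero (algebraMap ℤ (R ⧸ I)) p |> fun _ => ?_
    exact (CharP.charP_iff_prime_eq_zero hp.out).2 (by
      rw [← map_natCast (Ideal.Quotient.mk I), Ideal.Quotient.eq_zero_iff_mem]
      exact Ideal.mem_span_singleton_self _)
  have : ExpChar (R ⧸ I) p := ExpChar.prime hp.out
  set q := Ideal.Quotient.mk I
  have key : map q (G ^ p) = map q (expand p hp.out.ne_zero (map L.σ G)) := by
    rw [map_pow, ← map_frobenius_expand p hp.out.ne_zero, map_expand, map_expand, map_map, map_map]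
    have hc : (frobenius (R ⧸ I) p).comp q = q.comp L.σ := RingHom.ext fun a => by
      simp only [RingHom.comp_apply, frobenius_def]
      rw [← map_pow, eq_comm, ← sub_eq_zero, ← map_sub, Ideal.Quotient.eq_zero_iff_mem]
      exact Ideal.mem_span_singleton.2 (L.frob a)
    rw [hc]
  rw [← Ideal.mem_span_singleton, ← Ideal.Quotient.eq_zero_iff_mem, map_sub, map_sub,
    ← coeff_map, ← coeff_map, key, sub_self]

lemma pow_prime_pow_congr (G : MvPowerSeries τ R) (i : ℕ) :
    (p : MvPowerSeries τ R) ∣
      G ^ p ^ i - expand (p ^ i) (pow_ne_zero i hp.out.ne_zero) (map (sig L i) G) := by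
  induction i with
  | zero =>
    refine ⟨0, ?_⟩
    rw [mul_zero, sub_eq_zero]
    refine MvPowerSeries.ext fun d => ?_
    simp only [pow_zero, pow_one, sig, RingHom.one_def, expand_one_apply, coeff_map,
      RingHom.id_apply]
  | succ i ih =>
    set A := expand (p ^ i) (pow_ne_zero i hp.out.ne_zero) (map (sig L i) G)
    have h1 : (p : MvPowerSeries τ R) ∣ (G ^ p ^ i) ^ p - A ^ p :=
      ih.trans (sub_dvd_pow_sub_pow _ _ _)
    have h2 := pow_prime_congr L A
    have h3 : expand p hp.out.ne_zero (map L.σ A) =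
        expand (p ^ (i + 1)) (pow_ne_zero _ hp.out.ne_zero) (map (sig L (i + 1)) G) := by
      simp only [A, map_expand, map_map]
      rw [← expand_mul]
      congr 2
      · rw [pow_succ']
      · rw [sig, sig, pow_succ']; rfl
    rw [h3] at h2
    have := dvd_add h1 h2
    rwa [← pow_mul, ← pow_succ, sub_add_sub_cancel] at this

lemma pow_pow_congr (G : MvPowerSeries τ R) (i j : ℕ) :
    ((p ^ (j + 1) : ℕ) : MvPowerSeries τ R) ∣
      G ^ p ^ (i + j) - expand (p ^ i) (pow_ne_zero i hp.out.ne_zero) (map (sig L i) (G ^ p ^ j)) := by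
  rw [pow_add p i j, pow_mul, map_pow, map_pow, Nat.cast_pow]
  exact dvd_sub_pow_of_dvd_sub (pow_prime_pow_congr L G i) j

/-- The `i`-th twist of a series. -/
def twist (i : ℕ) (h : MvPowerSeries τ S) : MvPowerSeries τ S :=
  expand (p ^ i) (pow_ne_zero i hp.out.ne_zero) (map (sigS L i) h)

/-- The functional-equation operator `h ↦ h - Σ_i (t_i/p) σ^i h (x^{p^i})` at one coefficient. -/
def feq (t : ℕ → R) (h : MvPowerSeries τ S) (d : τ →₀ ℕ) : S :=
  coeff d h - L.invp * ∑ i ∈ Finset.range d.degree, L.ι (t (i + 1)) * coeff d (twist L (i + 1) h)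

lemma feq_add (t : ℕ → R) (h h' : MvPowerSeries τ S) (d : τ →₀ ℕ) :
    feq L t (h + h') d = feq L t h d + feq L t h' d := by
  simp only [feq, twist, map_add, mul_add, Finset.sum_add_distrib]
  ring

/-- The key congruence: the coefficient of degree `d` of `F` is controlled by the functional
equation of `log ∘ F` and the coefficients of lower degree. -/
theorem feq_sub_coeff_mem (t : ℕ → R) {F : MvPowerSeries τ S} (hF : constantCoeff F = 0)
    (d : τ →₀ ℕ) (hlow : ∀ e : τ →₀ ℕ, e.degree < d.degree → coeff e F ∈ L.ι.range) :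
    feq L t ((logS L t).subst F) d - coeff d F ∈ L.ι.range := by
  classical
  set D := d.degree with hD
  -- an integral truncation
  let G : MvPowerSeries τ R := fun e =>
    if h : e.degree < D then (hlow e h).choose else 0
  set Gs := map L.ι G with hGs
  have hG : ∀ e : τ →₀ ℕ, e.degree < D → coeff e Gs = coeff e F := by
    intro e he
    rw [hGs, coeff_map, MvPowerSeries.coeff_apply]
    simp only [G, dif_pos he]
    exact (hlow e he).choose_spec
  have hGs0 : constantCoeff Gs = 0 := by
    rcases Nat.eq_zero_or_pos D with h0 | h0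
    · rw [hGs, constantCoeff_map, ← coeff_zero_eq_constantCoeff_apply, MvPowerSeries.coeff_apply]
      simp [G, h0]
    · rw [← coeff_zero_eq_constantCoeff_apply, hG 0 (by simpa using h0),
        coeff_zero_eq_constantCoeff_apply, hF]
  -- higher powers only see the truncation
  have hdiff : ((D : ℕ) : ℕ∞) ≤ (F - Gs).order := by
    refine le_order fun e he => ?_
    rw [map_sub, hG e (by exact_mod_cast he), sub_self]
  have hpow : ∀ e : τ →₀ ℕ, e.degree ≤ D → ∀ b, 2 ≤ b → coeff e (F ^ b) = coeff e (Gs ^ b) := by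
    intro e he b hb
    rw [← sub_eq_zero, ← map_sub, ← geom_sum₂_mul]
    refine coeff_of_lt_order (lt_of_lt_of_le ?_ le_order_mul)
    have h1 : 1 ≤ (∑ i ∈ Finset.range b, F ^ i * Gs ^ (b - 1 - i)).order := by
      rw [one_le_order_iff_constCoeff_eq_zero, map_sum]
      refine Finset.sum_eq_zero fun i hi => ?_
      rw [map_mul, map_pow, map_pow, hF, hGs0]
      rcases Nat.eq_zero_or_pos i with h0 | h0
      · subst h0; rw [zero_pow (by omega : b - 1 - 0 ≠ 0), mul_zero]
      · rw [zero_pow h0.ne', zero_mul]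
    calc (e.degree : ℕ∞) ≤ D := by exact_mod_cast he
      _ < 1 + D := by rw [add_comm]; exact_mod_cast Nat.lt_succ_self D
      _ ≤ _ := add_le_add h1 hdiff
  have hDp : ∀ j, D < p ^ (D + 1 + j) := fun j =>
    lt_of_lt_of_le (Nat.lt_pow_self hp.out.one_lt) (Nat.pow_le_pow_right hp.out.pos (by omega))
  have h1 : coeff d ((logS L t).subst F) = coeff d F +
      ∑ N ∈ Finset.range D, coe L t (N + 1) * coeff d (Gs ^ p ^ (N + 1)) := by
    rw [coeff_subst_logS L t hF d (M := D + 1) (hDp 0), Finset.sum_range_succ', add_comm]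
    congr 1
    · simp
    · refine Finset.sum_congr rfl fun N _ => ?_
      rw [hpow d le_rfl _ (hp.out.two_le.trans (Nat.le_self_pow (by omega) p))]
  -- the twisted series
  have h2 : ∀ i ∈ Finset.range D, coeff d (twist L (i + 1) ((logS L t).subst F)) =
      ∑ j ∈ Finset.range (D - i),
        sigS L (i + 1) (coe L t j) * coeff d (twist L (i + 1) (Gs ^ p ^ j)) := by
    intro i hi
    have hi' := Finset.mem_range.1 hi
    by_cases hdvd : ∀ s, p ^ (i + 1) ∣ d s
    · obtain ⟨e, he⟩ : ∃ e : τ →₀ ℕ, p ^ (i + 1) • e = d :=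
        ⟨d.mapRange (fun a => a / p ^ (i + 1)) (Nat.zero_div _), Finsupp.ext fun s => by
          simp [Nat.mul_div_cancel' (hdvd s)]⟩
      have hdeg : D = p ^ (i + 1) * e.degree := by rw [hD, ← he, map_nsmul, smul_eq_mul]
      have he0 : 0 < e.degree := by
        by_contra h0
        rw [Nat.eq_zero_of_not_pos h0, mul_zero] at hdeg
        omega
      have hlt : e.degree < D := by
        rw [hdeg]
        exact lt_mul_of_one_lt_left he0 (Nat.one_lt_pow (by omega) hp.out.one_lt)
      have hb : e.degree < p ^ (D - i) := by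
        have h3 : e.degree + (i + 1) ≤ D := by
          rw [hdeg]
          have : i + 1 < p ^ (i + 1) := Nat.lt_pow_self hp.out.one_lt
          nlinarith
        exact lt_of_lt_of_le (Nat.lt_pow_self hp.out.one_lt)
          (Nat.pow_le_pow_right hp.out.pos (by omega))
      simp only [twist, ← he, coeff_expand_smul, coeff_map]
      rw [coeff_subst_logS L t hF e hb, map_sum]
      refine Finset.sum_congr rfl fun j _ => ?_
      rw [map_mul]
      congr 2
      rcases Nat.eq_zero_or_pos j with h0 | h0
      · subst h0; rw [pow_zero, pow_one, pow_one, hG e hlt]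
      · exact hpow e hlt.le _ (hp.out.two_le.trans (Nat.le_self_pow h0.ne' p))
    · push Not at hdvd
      obtain ⟨s, hs⟩ := hdvd
      simp only [twist, coeff_expand_of_not_dvd _ _ _ hs, mul_zero, Finset.sum_const_zero]
  -- one congruence
  have h3 : ∀ i j, L.invp * L.ι (t (i + 1)) * sigS L (i + 1) (coe L t j) *
      (coeff d (Gs ^ p ^ (i + 1 + j)) - coeff d (twist L (i + 1) (Gs ^ p ^ j))) ∈ L.ι.range := by
    intro i j
    obtain ⟨c, hc⟩ := (natCast_dvd_iff _ _).1 (pow_pow_congr L G (i + 1) j) d
    have e1 : coeff d (Gs ^ p ^ (i + 1 + j)) - coeff d (twist L (i + 1) (Gs ^ p ^ j)) =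
        (p : S) ^ (j + 1) * L.ι c := by
      have e2 : twist L (i + 1) (Gs ^ p ^ j) = map L.ι (expand (p ^ (i + 1))
          (pow_ne_zero _ hp.out.ne_zero) (map (sig L (i + 1)) (G ^ p ^ j))) := by
        rw [twist, hGs, ← map_pow, map_expand, map_map, map_map]
        congr 1
        have : (sigS L (i + 1)).comp L.ι = L.ι.comp (sig L (i + 1)) :=
          RingHom.ext fun a => sigS_ι L (i + 1) a
        rw [this]
      rw [e2, hGs, ← map_pow, ← map_sub, ← map_sub, coeff_map, hc, map_mul, map_natCast,
        Nat.cast_pow]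
    rw [e1]
    have h4 := sigS_range L (i + 1) (pow_mul_coe_mem L t j)
    rw [map_mul, map_pow, map_natCast] at h4
    have e : L.invp * L.ι (t (i + 1)) * sigS L (i + 1) (coe L t j) * ((p : S) ^ (j + 1) * L.ι c) =
        ((p : S) * L.invp) * (L.ι (t (i + 1) * c) * ((p : S) ^ j * sigS L (i + 1) (coe L t j))) := by
      rw [map_mul]; ring
    rw [e, L.mul_invp, one_mul]
    exact mul_mem ⟨_, rfl⟩ h4
  -- reindexing
  have h5 : ∑ N ∈ Finset.range D, coe L t (N + 1) * coeff d (Gs ^ p ^ (N + 1)) =
      ∑ i ∈ Finset.range D, ∑ j ∈ Finset.range (D - i), L.invp * L.ι (t (i + 1)) *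
        sigS L (i + 1) (coe L t j) * coeff d (Gs ^ p ^ (i + 1 + j)) := by
    simp only [coe_succ, Finset.mul_sum, Finset.sum_mul, Finset.sum_sigma']
    refine Finset.sum_nbij' (fun x => ⟨x.2, x.1 - x.2⟩) (fun y => ⟨y.1 + y.2, y.1⟩) ?_ ?_ ?_ ?_ ?_
    · rintro ⟨N, i⟩ h; simp at h ⊢; omega
    · rintro ⟨i, j⟩ h; simp at h ⊢; omega
    · rintro ⟨N, i⟩ h; simp at h; simp; omega
    · rintro ⟨i, j⟩ h; simp
    · rintro ⟨N, i⟩ h
      simp only [Finset.mem_sigma, Finset.mem_range] at h
      simp only [sigS_apply, show i + 1 + (N - i) = N + 1 by omega]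
      ring
  have h6 : feq L t ((logS L t).subst F) d - coeff d F =
      ∑ i ∈ Finset.range D, ∑ j ∈ Finset.range (D - i), L.invp * L.ι (t (i + 1)) *
        sigS L (i + 1) (coe L t j) *
        (coeff d (Gs ^ p ^ (i + 1 + j)) - coeff d (twist L (i + 1) (Gs ^ p ^ j))) := by
    rw [feq, h1, h5, Finset.sum_congr rfl fun i hi => congrArg (L.ι (t (i + 1)) * ·) (h2 i hi)]
    simp only [mul_sub, Finset.sum_sub_distrib, Finset.mul_sum, mul_assoc]
    ring
  rw [h6]
  exact sum_mem fun i _ => sum_mem fun j _ => h3 i j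

/-- A series with coefficients in `R` satisfies the functional equation. -/
theorem feq_mem_of_integral (t : ℕ → R) {G : MvPowerSeries τ R} (hG : constantCoeff G = 0)
    (d : τ →₀ ℕ) : feq L t ((logS L t).subst (map L.ι G)) d ∈ L.ι.range := by
  have h := feq_sub_coeff_mem L t (F := map L.ι G) (by simp [hG]) d fun e _ =>
    ⟨coeff e G, (coeff_map _ _ _).symm⟩
  have h2 : coeff d (map L.ι G) ∈ L.ι.range := ⟨coeff d G, (coeff_map _ _ _).symm⟩
  simpa using add_mem h h2

/-- Hazewinkel's functional-equation lemma. -/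
theorem integral_of_feq (t : ℕ → R) {F : MvPowerSeries τ S} (hF : constantCoeff F = 0)
    (h : ∀ d, feq L t ((logS L t).subst F) d ∈ L.ι.range) :
    ∃ G : MvPowerSeries τ R, map L.ι G = F := by
  have main : ∀ D, ∀ d : τ →₀ ℕ, d.degree = D → coeff d F ∈ L.ι.range := by
    intro D
    induction D using Nat.strong_induction_on with
    | _ D ih =>
      intro d hd
      simpa using sub_mem (h d)
        (feq_sub_coeff_mem L t hF d fun e he => ih _ (hd ▸ he) e rfl)
  choose G hG using fun d => main _ d rfl
  let G' : MvPowerSeries τ R := G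
  exact ⟨G', MvPowerSeries.ext fun d => by rw [coeff_map]; exact hG d⟩

lemma map_inj {A B : MvPowerSeries τ R} (h : map L.ι A = map L.ι B) : A = B :=
  MvPowerSeries.ext fun d => L.inj (by simpa using congrArg (coeff d) h)

/-- The logarithm is left cancellable. -/
lemma logS_cancel (t : ℕ → R) {A B : MvPowerSeries τ S} (hA : constantCoeff A = 0)
    (hB : constantCoeff B = 0) (h : (logS L t).subst A = (logS L t).subst B) : A = B := by
  have : Invertible (PowerSeries.coeff 1 (logS L t)) := (coeff_one_logS L t).symm ▸ invertibleOne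
  have hf := PowerSeries.HasSubst.of_constantCoeff_zero' (constantCoeff_logS L t)
  have h' := congrArg (fun Z => (MvPowerSeries.constantCoeff Z = 0)) h
  have key : ∀ C : MvPowerSeries τ S, constantCoeff C = 0 →
      (logS L t).substInv.subst ((logS L t).subst C) = C := fun C hC => by
    rw [← PowerSeries.subst_comp_subst_apply hf (hasSubst_of hC),
      PowerSeries.subst_substInv_left _ (constantCoeff_logS L t),
      PowerSeries.subst_X (hasSubst_of hC)]
  rw [← key A hA, ← key B hB, h]

lemma exists_logS_preimage (t : ℕ → R) {h : MvPowerSeries τ S} (hh : constantCoeff h = 0) :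
    ∃ F : MvPowerSeries τ S, constantCoeff F = 0 ∧ (logS L t).subst F = h := by
  have : Invertible (PowerSeries.coeff 1 (logS L t)) := (coeff_one_logS L t).symm ▸ invertibleOne
  refine ⟨(logS L t).substInv.subst h, ?_, ?_⟩
  · exact PowerSeries.constantCoeff_subst_eq_zero hh _ (PowerSeries.constantCoeff_substInv _)
  · rw [← PowerSeries.subst_comp_subst_apply (PowerSeries.HasSubst.substInv _) (hasSubst_of hh),
      PowerSeries.subst_substInv_right _ (constantCoeff_logS L t),
      PowerSeries.subst_X (hasSubst_of hh)]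

/-- There is a unique formal group law over `R` with logarithm `logS`, and it is commutative. -/
theorem existsUnique_law (t : ℕ → R) :
    ∃! F : FormalGroup R, (logS L t).subst (map L.ι F.toPowerSeries) =
      (logS L t).subst (X 0 : MvPowerSeries (Fin 2) S) + (logS L t).subst (X 1) := by
  classical
  set f := logS L t with hf
  set h : MvPowerSeries (Fin 2) S := f.subst (X 0) + f.subst (X 1) with hh
  have hX : ∀ s : Fin 2, constantCoeff (f.subst (X s : MvPowerSeries (Fin 2) S)) = 0 := fun s =>
    PowerSeries.constantCoeff_subst_eq_zero (constantCoeff_X s) _ (constantCoeff_logS L t)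
  obtain ⟨Fs, hFs0, hFs⟩ := exists_logS_preimage L t (h := h) (by simp [hh, hX])
  have hint : ∀ (s : Fin 2) d, feq L t (f.subst (X s)) d ∈ L.ι.range := fun s d => by
    simpa [map_X] using
      feq_mem_of_integral L t (G := (X s : MvPowerSeries (Fin 2) R)) (constantCoeff_X s) d
  obtain ⟨G, hG⟩ := integral_of_feq L t hFs0 fun d => by
    rw [hFs, hh, feq_add]
    exact add_mem (hint 0 d) (hint 1 d)
  have hG0 : constantCoeff G = 0 := L.inj (by rw [← constantCoeff_map, hG, hFs0, map_zero])
  have hlin : ∀ s : Fin 2, coeff (Finsupp.single s 1) G = 1 := by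
    intro s
    apply L.inj
    rw [← coeff_map, hG, map_one]
    have h1 := congrArg (coeff (Finsupp.single s 1)) hFs
    rw [coeff_subst_logS L t hFs0 _ (M := 1) (by simpa using hp.out.one_lt)] at h1
    simp only [Finset.range_one, Finset.sum_singleton, coe_zero, one_mul, pow_zero, pow_one] at h1
    rw [h1, hh, map_add, coeff_subst_logS L t (constantCoeff_X _) _ (M := 1)
      (by simpa using hp.out.one_lt), coeff_subst_logS L t (constantCoeff_X _) _ (M := 1)
      (by simpa using hp.out.one_lt)]
    fin_cases s <;>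
      simp [coeff_X, Finsupp.single_eq_single_iff]
  have hassoc : G.subst ![G.subst ![(X 0 : MvPowerSeries (Fin 3) R), X 1], X 2]
      = G.subst ![X 0, G.subst ![X 1, X 2]] := by
    apply map_inj L
    have hc : ∀ (a b : Fin 3), constantCoeff
        (subst ![(X a : MvPowerSeries (Fin 3) R), X b] G) = 0 := fun a b =>
      constantCoeff_subst_eq_zero (HasSubst.X_X (i := a) (j := b)) (fun s => by fin_cases s <;> simp) hG0
    have hS : ∀ A B : MvPowerSeries (Fin 3) R, constantCoeff A = 0 → constantCoeff B = 0 →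
        constantCoeff (map L.ι (G.subst ![A, B])) = 0 ∧
          f.subst (map L.ι (G.subst ![A, B])) = f.subst (map L.ι A) + f.subst (map L.ι B) := by
      intro A B hA hB
      have hs : HasSubst ![A, B] :=
        hasSubst_of_constantCoeff_zero fun s => by fin_cases s <;> simpa
      have hs' : HasSubst fun s => map L.ι (![A, B] s) :=
        hasSubst_of_constantCoeff_zero fun s => by fin_cases s <;> simp [constantCoeff_map, hA, hB]
      refine ⟨by rw [constantCoeff_map, constantCoeff_subst_eq_zero hs
        (fun s => by fin_cases s <;> simpa) hG0, map_zero], ?_⟩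
      rw [map_subst hs, hG, PowerSeries.subst, ← subst_comp_subst_apply (hasSubst_of hFs0).const hs',
        ← PowerSeries.subst, hFs, hh, subst_add hs']
      congr 1 <;>
      · rw [PowerSeries.subst, subst_comp_subst_apply (hasSubst_of (constantCoeff_X _)).const hs']
        congr 1
        funext u
        rw [subst_X hs']
        rfl
    refine logS_cancel L t (hS _ _ (hc 0 1) (constantCoeff_X _)).1
      (hS _ _ (constantCoeff_X _) (hc 1 2)).1 ?_
    rw [(hS _ _ (hc 0 1) (constantCoeff_X _)).2, (hS _ _ (constantCoeff_X _) (hc 1 2)).2,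
      (hS _ _ (constantCoeff_X _) (constantCoeff_X _)).2,
      (hS _ _ (constantCoeff_X _) (constantCoeff_X _)).2]
    ring
  refine ⟨⟨G, hG0, hlin 0, hlin 1, hassoc⟩, ?_, fun F' hF' => ?_⟩
  · show f.subst (map L.ι G) = h
    rw [hG]; exact hFs
  · refine FormalGroup.ext (map_inj L (logS_cancel L t ?_ ?_ ?_))
    · simp [F'.zero_constantCoeff]
    · simp [hG0]
    · rw [hF', hG, hFs]

section bridge

variable {A K : Type} [CommRing A] [CommRing K] (D : Law.FunEqData A K)

/-- The Frobenius lift underlying a `FunEqData`. -/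
def liftOf : Lift D.p A K where
  ι := D.inc
  inj := D.inc_injective
  σ := D.sigA
  σS := D.sigK
  comm := D.sig_comm
  frob := D.frob
  invp := D.pinv
  mul_invp := by rw [mul_comm]; exact D.pinv_mul

/-- The coefficients `u_i`, cut off after `n`. -/
def cutoff : ℕ → A := fun i => if i ≤ D.n then D.u i else 0

lemma coe_liftOf (N : ℕ) : coe (liftOf D) (cutoff D) N = D.m N := by
  have : Fact D.p.Prime := ⟨D.hp⟩
  induction N using Nat.strong_induction_on with
  | _ N ih =>
    cases N with
    | zero => rw [coe_zero, D.m_zero]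
    | succ N =>
      rw [coe, D.m_succ, Finset.mul_sum]
      refine Finset.sum_congr rfl fun i _ => ?_
      have hi := i.isLt
      rw [ih (N - i.val) (by omega)]
      simp only [liftOf, cutoff]
      split_ifs with h1 h2 h2
      · ring
      · omega
      · omega
      · rw [map_zero, zero_mul, mul_zero]

lemma logS_liftOf : logS (p := D.p) (liftOf D) (cutoff D) = D.log := by
  simp only [logS, Law.FunEqData.log, coe_liftOf]

/-- `log(x)` has `p^N`-th coefficient `m_N` with `p^N m_N` integral. -/
theorem _root_.Vale.Agent.P217.Law.FunEqData.pow_mul_m_mem (N : ℕ) :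
    (D.p : K) ^ N * D.m N ∈ D.inc.range := by
  have : Fact D.p.Prime := ⟨D.hp⟩
  rw [← coe_liftOf]
  exact pow_mul_coe_mem (liftOf D) (cutoff D) N

/-- The mirrored recursion. -/
theorem _root_.Vale.Agent.P217.Law.FunEqData.m_succ' (N : ℕ) :
    D.m (N + 1) = D.pinv * ∑ i ∈ Finset.range (N + 1),
      if i < D.n then D.m (N - i) * D.inc (D.sigA^[N - i] (D.u (i + 1))) else 0 := by
  have : Fact D.p.Prime := ⟨D.hp⟩
  rw [← coe_liftOf, coe_succ']
  refine congrArg (D.pinv * ·) (Finset.sum_congr rfl fun i _ => ?_)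
  rw [coe_liftOf]
  simp only [liftOf, cutoff]
  split_ifs with h1 h2 h2
  · rfl
  · omega
  · omega
  · rw [← RingHom.coe_pow, map_zero, map_zero, mul_zero]

lemma frobPS_iterate (τ : Type) (i : ℕ) (g : MvPowerSeries τ K) :
    haveI : Fact D.p.Prime := ⟨D.hp⟩
    (D.frobPS τ)^[i] g = twist (p := D.p) (liftOf D) i g := by
  have : Fact D.p.Prime := ⟨D.hp⟩
  induction i with
  | zero => simp [twist, sigS, RingHom.one_def, map_id]
  | succ i ih =>
    rw [Function.iterate_succ_apply', ih]
    simp only [twist, Law.FunEqData.frobPS, RingHom.comp_apply, AlgHom.toRingHom_eq_coe,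
      RingHom.coe_coe, map_expand, map_map]
    rw [← expand_mul]
    congr 2
    · rw [pow_succ']
    · rw [sigS, sigS, pow_succ']; rfl

lemma coeff_defect {τ : Type} {g : MvPowerSeries τ K} (hg : constantCoeff g = 0) (d : τ →₀ ℕ) :
    haveI : Fact D.p.Prime := ⟨D.hp⟩
    coeff d (D.defect g) = feq (p := D.p) (liftOf D) (cutoff D) g d := by
  classical
  have : Fact D.p.Prime := ⟨D.hp⟩
  have hz : ∀ i, d.degree ≤ i → coeff d (twist (p := D.p) (liftOf D) (i + 1) g) = 0 := by
    intro i hi
    by_cases hdvd : ∀ s, D.p ^ (i + 1) ∣ d s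
    · by_cases hd : d = 0
      · subst hd
        rw [coeff_zero_eq_constantCoeff_apply, twist, constantCoeff_expand, constantCoeff_map, hg,
          map_zero]
      obtain ⟨s, hs⟩ := Finsupp.ne_iff.1 hd
      have h1 := Nat.le_of_dvd (Nat.pos_of_ne_zero hs) (hdvd s)
      have h2 := Finsupp.le_degree s d
      have h3 : i + 1 < D.p ^ (i + 1) := Nat.lt_pow_self D.hp.one_lt
      omega
    · push Not at hdvd
      obtain ⟨s, hs⟩ := hdvd
      exact coeff_expand_of_not_dvd _ _ _ hs
  rw [Law.FunEqData.defect, feq, map_sub, map_sum, Finset.mul_sum]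
  congr 1
  set F : ℕ → K := fun i =>
    D.pinv * (D.inc (cutoff D (i + 1)) * coeff d (twist (p := D.p) (liftOf D) (i + 1) g)) with hF
  calc ∑ i ∈ Finset.range D.n,
        coeff d (MvPowerSeries.C (D.pinv * D.inc (D.u (i + 1))) * (D.frobPS τ)^[i + 1] g)
      = ∑ i ∈ Finset.range D.n, F i := by
        refine Finset.sum_congr rfl fun i hi => ?_
        have := Finset.mem_range.1 hi
        rw [frobPS_iterate, coeff_C_mul, hF, mul_assoc]
        simp only [cutoff]
        rw [if_pos (by omega)]
    _ = ∑ i ∈ Finset.range (max D.n d.degree), F i := by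
        refine Finset.sum_subset (Finset.range_mono (le_max_left _ _)) fun i _ hi => ?_
        simp only [Finset.mem_range, not_lt] at hi
        simp only [hF, cutoff]
        rw [if_neg (by omega), map_zero, zero_mul, mul_zero]
    _ = ∑ i ∈ Finset.range d.degree, F i := by
        refine (Finset.sum_subset (Finset.range_mono (le_max_right _ _)) fun i _ hi => ?_).symm
        simp only [Finset.mem_range, not_lt] at hi
        simp only [hF, hz i hi, mul_zero]
    _ = _ := rfl

/-- The functional equation lemma. -/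
theorem _root_.Vale.Agent.P217.Law.FunEqData.inv_log : D.InvLogStatement := by
  intro τ _ F hF hint d
  have : Fact D.p.Prime := ⟨D.hp⟩
  have h0 : constantCoeff ((D.log).subst F) = 0 :=
    PowerSeries.constantCoeff_subst_eq_zero hF _ (by
      rw [← logS_liftOf]; exact constantCoeff_logS _ _)
  obtain ⟨G, hG⟩ := integral_of_feq (p := D.p) (liftOf D) (cutoff D) hF fun d => by
    rw [logS_liftOf, ← coeff_defect D h0]
    exact hint d
  exact ⟨coeff d G, by rw [← hG, coeff_map]; rfl⟩

/-- Its converse. -/
theorem _root_.Vale.Agent.P217.Law.FunEqData.log_integral_defect : D.LogStatement := by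
  intro τ _ F hF hint d
  have : Fact D.p.Prime := ⟨D.hp⟩
  have h0 : constantCoeff ((D.log).subst F) = 0 :=
    PowerSeries.constantCoeff_subst_eq_zero hF _ (by
      rw [← logS_liftOf]; exact constantCoeff_logS _ _)
  have h1 := feq_sub_coeff_mem (p := D.p) (liftOf D) (cutoff D) hF d fun e _ => hint e
  rw [logS_liftOf, ← coeff_defect D h0] at h1
  simpa [liftOf] using add_mem h1 (hint d)

end bridge

end Vale.Agent.P217.FunEq
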