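/-
P217, block A: low coefficients of Hazewinkel's law and of its logarithm.
-/
import Vale.Agent.P217.Law.Basic
import Vale.Agent.P217.Law.FunEq

namespace Vale.Agent.P217.Law

open MvPowerSeries

lemma deg2_eq_degree (d : Fin 2 →₀ ℕ) : deg2 d = d.degree := by
  rw [Finsupp.degree_eq_sum, Fin.sum_univ_two, deg2]

/-- In degree `≤ k` the `k`-th power of `x + y + ...` is `(x + y)^k`. -/
lemma coeff_pow_low {S : Type} [CommRing S] (G : MvPowerSeries (Fin 2) S)
    (h0 : constantCoeff G = 0) (hx : coeff (Finsupp.single 0 1) G = 1)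
    (hy : coeff (Finsupp.single 1 1) G = 1) (k : ℕ) (d : Fin 2 →₀ ℕ) (hd : d.degree ≤ k) :
    coeff d (G ^ k) = if d.degree = k then (k.choose (d 0) : S) else 0 := by
  classical
  set L : MvPowerSeries (Fin 2) S := X 0 + X 1 with hL
  have hL0 : constantCoeff L = 0 := by simp [hL]
  have h2 : ((2 : ℕ) : ℕ∞) ≤ (G - L).order := by
    refine le_order fun e he => ?_
    have he' : e.degree < 2 := by exact_mod_cast he
    rw [Finsupp.degree_eq_sum, Fin.sum_univ_two] at he'
    have : e = 0 ∨ e = Finsupp.single 0 1 ∨ e = Finsupp.single 1 1 := by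
      rcases Nat.eq_zero_or_pos (e 0) with h | h
      · rcases Nat.eq_zero_or_pos (e 1) with h' | h'
        · left; ext i; fin_cases i <;> simp [h, h']
        · right; right; ext i; fin_cases i <;> simp [h]; omega
      · right; left; ext i; fin_cases i <;> simp <;> omega
    rcases this with rfl | rfl | rfl
    · rw [coeff_zero_eq_constantCoeff_apply, map_sub, h0, hL0, sub_zero]
    · rw [map_sub, hx, hL, map_add, coeff_X, coeff_X]
      simp [Finsupp.single_eq_single_iff]
    · rw [map_sub, hy, hL, map_add, coeff_X, coeff_X]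
      simp [Finsupp.single_eq_single_iff]
  have hk : ∀ j : ℕ, ((j + 1 : ℕ) : ℕ∞) ≤ (G ^ j - L ^ j).order := by
    intro j
    induction j with
    | zero => simp
    | succ j ih =>
      have e : G ^ (j + 1) - L ^ (j + 1) = G ^ j * (G - L) + (G ^ j - L ^ j) * L := by ring
      rw [e]
      refine le_trans (le_min ?_ ?_) (min_order_le_add)
      · refine le_trans ?_ le_order_mul
        calc ((j + 1 + 1 : ℕ) : ℕ∞) = (j : ℕ∞) + ((2 : ℕ) : ℕ∞) := by push_cast; ring
          _ ≤ _ := add_le_add (le_order_pow_of_constantCoeff_eq_zero j h0) h2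
      · refine le_trans ?_ le_order_mul
        calc ((j + 1 + 1 : ℕ) : ℕ∞) = ((j + 1 : ℕ) : ℕ∞) + ((1 : ℕ) : ℕ∞) := by push_cast; ring
          _ ≤ _ := add_le_add ih (by
            simpa using one_le_order_iff_constCoeff_eq_zero.2 hL0)
  have hz : coeff d (G ^ k - L ^ k) = 0 :=
    coeff_of_lt_order (lt_of_lt_of_le (by exact_mod_cast Nat.lt_succ_of_le hd) (hk k))
  rw [map_sub, sub_eq_zero] at hz
  rw [hz, hL]
  simp only [← MvPolynomial.coe_X, ← MvPolynomial.coe_add, ← MvPolynomial.coe_pow,
    MvPolynomial.coeff_coe, MvPolynomial.coeff_add_pow, Finset.HasAntidiagonal.mem_antidiagonal]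
  rw [Finsupp.degree_eq_sum, Fin.sum_univ_two]
  push_cast
  rfl

/-- Coefficients of a substitution into the logarithm. -/
lemma coeff_subst_log {A K : Type} [CommRing A] [CommRing K] (D : FunEqData A K) {τ : Type}
    {F : MvPowerSeries τ K} (hF : constantCoeff F = 0) (d : τ →₀ ℕ) {M : ℕ}
    (hM : d.degree < D.p ^ M) :
    coeff d (PowerSeries.subst F D.log) = ∑ N ∈ Finset.range M, D.m N * coeff d (F ^ D.p ^ N) := by
  have : Fact D.p.Prime := ⟨D.hp⟩
  rw [← FunEq.logS_liftOf D, FunEq.coeff_subst_logS _ _ hF d hM]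
  simp only [FunEq.coe_liftOf]

end Vale.Agent.P217.Law

namespace Vale.Agent.P217

open MvPowerSeries

variable (p n : ℕ) [hp : Fact p.Prime]

/-- The coefficient field. -/
abbrev WFrac : Type := FractionRing (WittVector p (Res p n))

lemma constantCoeff_toRat_par (i : ℕ) (hi : i < n) :
    constantCoeff (toRat p n (par p n (i + 1))) = if i + 1 = n then (1 : WFrac p n) else 0 := by
  unfold par
  by_cases h : i + 1 = n
  · rw [dif_neg (by omega), if_neg (by omega), if_pos h, map_one, map_one]
  · rw [dif_pos ⟨by omega, by omega⟩, if_neg h]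
    simp [toRat]

lemma toRat_par_X (i : ℕ) (hi : i + 1 < n) :
    toRat p n (par p n (i + 1)) =
      (X (⟨i, by omega⟩ : Fin (n - 1)) : RatLT p n) := by
  unfold par
  rw [dif_pos ⟨by omega, hi⟩]
  simp [toRat]

/-- The constant coefficients satisfy the Honda recursion. -/
lemma constantCoeff_logCoeff_succ (N : ℕ) :
    constantCoeff (logCoeff p n (N + 1)) =
      if n ≤ N + 1 ∧ n ≠ 0 then (p : WFrac p n)⁻¹ * constantCoeff (logCoeff p n (N + 1 - n))
      else 0 := by
  rw [logCoeff, map_mul, map_sum, invP, constantCoeff_C]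
  by_cases h : n ≤ N + 1 ∧ n ≠ 0
  · rw [if_pos h, Finset.sum_eq_single (⟨n - 1, by omega⟩ : Fin (N + 1))]
    · rw [if_pos (by simp only; omega), map_mul, map_pow,
        constantCoeff_toRat_par p n (n - 1) (by omega)]
      rw [if_pos (by omega), one_pow, mul_one, show N - (n - 1) = N + 1 - n by omega]
    · intro j _ hj
      split_ifs with hjn
      · rw [map_mul, map_pow, constantCoeff_toRat_par p n j.val hjn, if_neg, zero_pow, mul_zero]
        · exact pow_ne_zero _ hp.out.ne_zero
        · intro e
          exact hj (Fin.ext (by simp only; omega))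
      · simp
    · simp
  · rw [if_neg h, Finset.sum_eq_zero, mul_zero]
    intro j _
    have := j.isLt
    split_ifs with hjn
    · rw [map_mul, map_pow, constantCoeff_toRat_par p n j.val hjn, if_neg (by omega), zero_pow,
        mul_zero]
      exact pow_ne_zero _ hp.out.ne_zero
    · simp

lemma constantCoeff_logCoeff_ne_zero : ∀ N, constantCoeff (logCoeff p n N) ≠ (0 : WFrac p n) →
    ∃ k, N = k * n := by
  intro N
  induction N using Nat.strong_induction_on with
  | _ N ih =>
    intro h
    cases N with
    | zero => exact ⟨0, by simp⟩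
    | succ N =>
      rw [constantCoeff_logCoeff_succ] at h
      by_cases hc : n ≤ N + 1 ∧ n ≠ 0
      · rw [if_pos hc] at h
        obtain ⟨k, hk⟩ := ih (N + 1 - n) (by omega) (right_ne_zero_of_mul h)
        refine ⟨k + 1, ?_⟩
        rw [add_mul, one_mul, ← hk]
        omega
      · rw [if_neg hc] at h
        exact absurd rfl h

lemma constantCoeff_logCoeff_low (N : ℕ) (h1 : 1 ≤ N) (h2 : N ≤ n) :
    constantCoeff (logCoeff p n N) = if N = n then (p : WFrac p n)⁻¹ else 0 := by
  obtain ⟨M, rfl⟩ : ∃ M, N = M + 1 := ⟨N - 1, by omega⟩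
  rw [constantCoeff_logCoeff_succ]
  by_cases h : M + 1 = n
  · rw [if_pos ⟨by omega, by omega⟩, if_pos h, h, Nat.sub_self, logCoeff, map_one, mul_one]
  · rw [if_neg (by omega), if_neg h]

lemma linCoeff_logCoeff (i : Fin (n - 1)) (N : ℕ) (h1 : 1 ≤ N) (h2 : N ≤ i.val + 1) :
    coeff (Finsupp.single i 1) (logCoeff p n N) =
      if N = i.val + 1 then (p : WFrac p n)⁻¹ else 0 := by
  classical
  obtain ⟨M, rfl⟩ : ∃ M, N = M + 1 := ⟨N - 1, by omega⟩
  have hi := i.isLt
  rw [logCoeff, invP, coeff_C_mul, map_sum, Finset.sum_eq_single (⟨M, by omega⟩ : Fin (M + 1))]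
  · rw [if_pos (by simp only; omega)]
    simp only [Nat.sub_self, pow_zero, pow_one]
    rw [logCoeff, one_mul, toRat_par_X p n M (by omega), coeff_X]
    by_cases h : M + 1 = i.val + 1
    · rw [if_pos h, if_pos, mul_one]
      have : (⟨M, by omega⟩ : Fin (n - 1)) = i := Fin.ext (by simp only; omega)
      rw [this]
    · rw [if_neg h, if_neg, mul_zero]
      intro e
      rw [Finsupp.single_eq_single_iff] at e
      rcases e with ⟨e, _⟩ | ⟨e, _⟩
      · exact h (by rw [e])
      · exact one_ne_zero e
  · intro j _ hj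
    have hj' : j.val < M := by
      have := j.isLt
      rcases Nat.lt_or_ge j.val M with h | h
      · exact h
      · exact absurd (Fin.ext (by simp only; omega)) hj
    rw [if_pos (by omega), toRat_par_X p n j.val (by omega), X_pow_eq, coeff_mul_monomial,
      if_neg]
    intro hle
    have h3 := hle (⟨j.val, by omega⟩ : Fin (n - 1))
    rw [Finsupp.single_eq_same] at h3
    have h4 : 2 ≤ p ^ (M - j.val) :=
      le_trans hp.out.two_le (Nat.le_self_pow (by omega) p)
    have h5 : (Finsupp.single i 1 : Fin (n - 1) →₀ ℕ) ⟨j.val, by omega⟩ ≤ 1 := by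
      rw [Finsupp.single_apply]; split_ifs <;> omega
    omega
  · simp

lemma coeff_single_mul_eq_zero (i : Fin (n - 1)) {a b : RatLT p n} (h0 : constantCoeff a = 0)
    (h1 : coeff (Finsupp.single i 1) a = 0) : coeff (Finsupp.single i 1) (a * b) = 0 := by
  classical
  rw [coeff_mul]
  refine Finset.sum_eq_zero fun x hx => ?_
  rw [Finset.HasAntidiagonal.mem_antidiagonal] at hx
  have hle : x.1 ≤ Finsupp.single i 1 := hx ▸ le_self_add
  have hsupp : x.1 = Finsupp.single i (x.1 i) := by
    ext j
    by_cases hj : j = i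
    · subst hj; simp
    · have h := hle j
      rw [Finsupp.single_eq_of_ne hj] at h
      rw [Finsupp.single_eq_of_ne hj]
      omega
  have h2 := hle i
  rw [Finsupp.single_eq_same] at h2
  rcases Nat.le_one_iff_eq_zero_or_eq_one.1 h2 with h | h
  · rw [hsupp, h, Finsupp.single_zero, coeff_zero_eq_constantCoeff_apply, h0, zero_mul]
  · rw [hsupp, h, h1, zero_mul]

/-- The common computation of a low coefficient: `φ` is a linear functional killing `m_N X` for
`1 ≤ N < v` and sending `m_v` to `1/p`. -/
lemma low_coefficient (φ : RatLT p n →+ WFrac p n) {v : ℕ}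
    (hkill : ∀ N, 1 ≤ N → N < v → ∀ x, φ (logCoeff p n N * x) = 0)
    (htop : ∀ k : ℕ, φ (logCoeff p n v * (k : RatLT p n)) = (p : WFrac p n)⁻¹ * k)
    {F : FormalGroup (LT p n)} (hF : IsUniversalLaw p n F) (hv : 1 ≤ v) (d : Fin 2 →₀ ℕ)
    (hd2 : 2 ≤ deg2 d) (hd : deg2 d ≤ p ^ v) :
    φ (toRat p n (coeff d F.toPowerSeries)) =
      if deg2 d = p ^ v then -(cpc p (p ^ v) d : WFrac p n) else 0 := by
  classical
  let D := funEqData p n
  set G := MvPowerSeries.map (toRat p n) F.toPowerSeries with hG
  have hG0 : constantCoeff G = 0 := by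
    rw [hG, MvPowerSeries.constantCoeff_map, F.zero_constantCoeff, map_zero]
  have hGx : coeff (Finsupp.single 0 1) G = 1 := by
    rw [hG, MvPowerSeries.coeff_map, F.lin_coeff_X, map_one]
  have hGy : coeff (Finsupp.single 1 1) G = 1 := by
    rw [hG, MvPowerSeries.coeff_map, F.lin_coeff_Y, map_one]
  rw [Law.deg2_eq_degree] at hd2 hd ⊢
  set P := p ^ v with hP
  have hM : d.degree < D.p ^ (v + 1) :=
    lt_of_le_of_lt hd (Nat.pow_lt_pow_right hp.out.one_lt (Nat.lt_succ_self v))
  have h1 := congrArg (coeff d) hF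
  rw [← hG, map_add, show logSeries p n = D.log from rfl, Law.coeff_subst_log D hG0 d hM,
    Finset.sum_range_succ'] at h1
  have e0 : D.m 0 * coeff d (G ^ D.p ^ 0) = toRat p n (coeff d F.toPowerSeries) := by
    rw [D.m_zero, one_mul, pow_zero, pow_one, hG, MvPowerSeries.coeff_map]
  rw [e0] at h1
  have h2 := congrArg φ h1
  rw [map_add, map_sum, map_add] at h2
  have hsum : ∑ N ∈ Finset.range v, φ (D.m (N + 1) * coeff d (G ^ D.p ^ (N + 1))) =
      if d.degree = P then (p : WFrac p n)⁻¹ * (P.choose (d 0) : ℕ) else 0 := by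
    rw [Finset.sum_eq_single (v - 1)]
    · rw [show v - 1 + 1 = v by omega, show D.p ^ v = P from rfl,
        Law.coeff_pow_low G hG0 hGx hGy P d hd, show D.m v = logCoeff p n v from rfl]
      split_ifs
      · exact htop _
      · simp
    · intro N hN hne
      have := Finset.mem_range.1 hN
      exact hkill (N + 1) (by omega) (by omega) _
    · intro h
      exact absurd (Finset.mem_range.2 (by omega)) h
  rw [hsum] at h2
  have hlog : ∀ k, 2 ≤ k → k ≤ P → φ (PowerSeries.coeff k D.log) =
      if k = P then (p : WFrac p n)⁻¹ else 0 := by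
    intro k hk hk'
    simp only [Law.FunEqData.log, PowerSeries.coeff_mk]
    by_cases hpow : D.p ^ Nat.log D.p k = k
    · rw [if_pos hpow]
      set N := Nat.log D.p k with hN
      have hN1 : 1 ≤ N := by
        by_contra hc
        rw [Nat.lt_one_iff.1 (not_le.1 hc), pow_zero] at hpow
        omega
      have hNv : N ≤ v := by
        rw [← Nat.pow_le_pow_iff_right hp.out.one_lt]
        exact le_of_eq_of_le hpow hk'
      rcases lt_or_eq_of_le hNv with hlt | heq
      · rw [if_neg, show D.m N = logCoeff p n N * 1 from (mul_one _).symm, hkill N hN1 hlt]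
        intro e
        have : p ^ N = p ^ v := hpow.trans e
        have := Nat.pow_right_injective hp.out.two_le this
        omega
      · rw [if_pos (by rw [← hpow, heq]; rfl), heq, show D.m v = logCoeff p n v from rfl]
        simpa using htop 1
    · rw [if_neg hpow, map_zero, if_neg]
      intro e
      apply hpow
      rw [e]
      change p ^ Nat.log p (p ^ v) = p ^ v
      rw [Nat.log_pow hp.out.one_lt]
  simp only [PowerSeries.coeff_subst_single] at h2
  have hdeg : d.degree = d 0 + d 1 := by rw [← Law.deg2_eq_degree]; rfl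
  rw [apply_ite φ, apply_ite φ, map_zero φ] at h2
  by_cases hmix : 0 < d 0 ∧ 0 < d 1
  · have n0 : d ≠ Finsupp.single 0 (d 0) := by
      intro e
      have := congrArg (fun f => f 1) e
      simp at this
      omega
    have n1 : d ≠ Finsupp.single 1 (d 1) := by
      intro e
      have := congrArg (fun f => f 0) e
      simp at this
      omega
    rw [if_neg n0, if_neg n1, add_zero] at h2
    by_cases hdP : d.degree = P
    · rw [if_pos hdP] at h2 ⊢
      rw [eq_neg_of_add_eq_zero_right h2]
      have hdvd : p ∣ P.choose (d 0) :=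
        hp.out.dvd_choose_pow (by omega) (by omega)
      obtain ⟨c, hc⟩ := hdvd
      rw [cpc, if_pos hmix, hc, Nat.mul_div_cancel_left _ hp.out.pos, Nat.cast_mul,
        ← mul_assoc, inv_mul_cancel₀ (wittP_ne_zero p n), one_mul]
    · rw [if_neg hdP, zero_add] at h2
      rw [if_neg hdP, h2]
  · have hpure : d = Finsupp.single 0 (d 0) ∧ d 1 = 0 ∨ d = Finsupp.single 1 (d 1) ∧ d 0 = 0 := by
      rcases Nat.eq_zero_or_pos (d 1) with h | h
      · left; refine ⟨?_, h⟩; ext i; fin_cases i <;> simp [h]
      · right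
        have h0 : d 0 = 0 := by omega
        refine ⟨?_, h0⟩; ext i; fin_cases i <;> simp [h0]
    have hc : cpc p P d = 0 := by rw [cpc, if_neg hmix]
    rw [hc, Nat.cast_zero, neg_zero, ite_self]
    rcases hpure with ⟨e, h⟩ | ⟨e, h⟩
    · have n1 : d ≠ Finsupp.single 1 (d 1) := by
        intro e'
        have := congrArg (fun f => f 0) e'
        simp at this
        omega
      rw [if_pos e, if_neg n1, add_zero, hlog _ (by omega) (by omega), hdeg, h, add_zero] at h2
      by_cases hdP : d 0 = P
      · rw [if_pos hdP, if_pos hdP, hdP, Nat.choose_self, Nat.cast_one, mul_one] at h2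
        exact add_eq_left.1 h2
      · rw [if_neg hdP, if_neg hdP, zero_add] at h2
        exact h2
    · have n0 : d ≠ Finsupp.single 0 (d 0) := by
        intro e'
        have := congrArg (fun f => f 1) e'
        simp at this
        omega
      rw [if_neg n0, if_pos e, zero_add, hlog _ (by omega) (by omega), hdeg, h, zero_add] at h2
      by_cases hdP : d 1 = P
      · rw [if_pos hdP, if_pos hdP, Nat.choose_zero_right, Nat.cast_one, mul_one] at h2
        exact add_eq_left.1 h2
      · rw [if_neg hdP, if_neg hdP, zero_add] at h2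
        exact h2

/-- The linear terms in low degree. -/
theorem law_linear {F : FormalGroup (LT p n)} (hF : IsUniversalLaw p n F) (i : Fin (n - 1))
    (d : Fin 2 →₀ ℕ) (hd : deg2 d ≤ p ^ (i.val + 1)) :
    coeff (Finsupp.single i 1) (coeff d F.toPowerSeries) =
      if deg2 d = p ^ (i.val + 1) then -(cpc p (p ^ (i.val + 1)) d : WittVector p (Res p n))
      else 0 := by
  classical
  have hP : 2 ≤ p ^ (i.val + 1) := le_trans hp.out.two_le (Nat.le_self_pow (by omega) p)
  by_cases hd2 : 2 ≤ deg2 d
  · apply IsFractionRing.injective (WittVector p (Res p n)) (WFrac p n)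
    have key := low_coefficient p n (coeff (Finsupp.single i 1)).toAddMonoidHom (v := i.val + 1)
      (fun N h1 h2 x => coeff_single_mul_eq_zero p n i
        (by rw [constantCoeff_logCoeff_low p n N h1 (by omega), if_neg (by omega)])
        (by rw [linCoeff_logCoeff p n i N h1 h2.le, if_neg (by omega)]))
      (fun k => by
        change coeff (Finsupp.single i 1) (logCoeff p n (i.val + 1) * (k : RatLT p n)) = _
        rw [← map_natCast (MvPowerSeries.C : WFrac p n →+* RatLT p n), coeff_mul_C,
          linCoeff_logCoeff p n i _ (by omega) le_rfl, if_pos rfl])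
      hF (by omega) d hd2 hd
    rw [LinearMap.toAddMonoidHom_coe, toRat, MvPowerSeries.coeff_map] at key
    rw [key]
    split_ifs <;> simp
  · rw [if_neg (by omega)]
    have hsum : d 0 + d 1 < 2 := not_le.1 hd2
    have : d = 0 ∨ d = Finsupp.single 0 1 ∨ d = Finsupp.single 1 1 := by
      rcases Nat.eq_zero_or_pos (d 0) with h | h
      · rcases Nat.eq_zero_or_pos (d 1) with h' | h'
        · left; ext j; fin_cases j <;> simp [h, h']
        · right; right; ext j; fin_cases j <;> simp [h]; omega
      · right; left; ext j; fin_cases j <;> simp <;> omega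
    have hne : (Finsupp.single i 1 : Fin (n - 1) →₀ ℕ) ≠ 0 := by simp
    rcases this with rfl | rfl | rfl
    · rw [coeff_zero_eq_constantCoeff_apply, F.zero_constantCoeff, map_zero]
    · rw [F.lin_coeff_X, coeff_one, if_neg hne]
    · rw [F.lin_coeff_Y, coeff_one, if_neg hne]

/-- The special fibre in low degree, over `W`. -/
theorem law_special_low {F : FormalGroup (LT p n)} (hF : IsUniversalLaw p n F)
    (d : Fin 2 →₀ ℕ) (hd2 : 2 ≤ deg2 d) (hd : deg2 d ≤ p ^ n) :
    constantCoeff (coeff d F.toPowerSeries) =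
      if deg2 d = p ^ n then -(cpc p (p ^ n) d : WittVector p (Res p n)) else 0 := by
  have hn : 1 ≤ n := by
    by_contra h
    rw [Nat.lt_one_iff.1 (not_le.1 h), pow_zero] at hd
    omega
  apply IsFractionRing.injective (WittVector p (Res p n)) (WFrac p n)
  have key := low_coefficient p n (constantCoeff (σ := Fin (n - 1))).toAddMonoidHom (v := n)
    (fun N h1 h2 x => by
      change constantCoeff (logCoeff p n N * x) = 0
      rw [map_mul, constantCoeff_logCoeff_low p n N h1 h2.le, if_neg (by omega), zero_mul])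
    (fun k => by
      change constantCoeff (logCoeff p n n * (k : RatLT p n)) = _
      rw [map_mul, constantCoeff_logCoeff_low p n n hn le_rfl, if_pos rfl, map_natCast])
    hF hn d hd2 hd
  rw [RingHom.toAddMonoidHom_eq_coe, AddMonoidHom.coe_coe, toRat,
    MvPowerSeries.constantCoeff_map] at key
  rw [key]
  split_ifs <;> simp

end Vale.Agent.P217
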