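/-
P217, block A: the facts on Hazewinkel's law.
-/
import Vale.Agent.P217.Law.Low

namespace Vale.Agent.P217

open MvPowerSeries

variable (p n : ℕ) [hp : Fact p.Prime]

theorem law_comm {F : FormalGroup (LT p n)} (hF : IsUniversalLaw p n F) (d : Fin 2 →₀ ℕ) :
    coeff d F.toPowerSeries = coeff (d.mapDomain (Equiv.swap 0 1)) F.toPowerSeries := by
  classical
  have hs : MvPowerSeries.HasSubst
      (![X 1, X 0] : Fin 2 → MvPowerSeries (Fin 2) (LT p n)) :=
    hasSubst_of_constantCoeff_zero fun i => by fin_cases i <;> simp
  have hprod : ∀ e : Fin 2 →₀ ℕ,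
      (e.prod fun s k => (![X 1, X 0] : Fin 2 → MvPowerSeries (Fin 2) (LT p n)) s ^ k) =
        monomial (e.mapDomain (Equiv.swap 0 1)) 1 := by
    intro e
    rw [Finsupp.prod_fintype _ _ (fun _ => pow_zero _), Fin.prod_univ_two]
    simp only [Matrix.cons_val_zero, Matrix.cons_val_one, Matrix.cons_val_fin_one, X_pow_eq,
      monomial_mul_monomial, mul_one]
    congr 2
    ext i
    rw [Finsupp.mapDomain_equiv_apply]
    fin_cases i <;> simp
  have hswap : ∀ e : Fin 2 →₀ ℕ,
      (e.mapDomain (Equiv.swap 0 1)).mapDomain (Equiv.swap (0 : Fin 2) 1) = e := fun e => by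
    ext i
    rw [Finsupp.mapDomain_equiv_apply, Finsupp.mapDomain_equiv_apply, Equiv.symm_swap,
      Equiv.swap_apply_self]
  have h := congrArg (coeff d) hF.swap
  rw [MvPowerSeries.coeff_subst hs, finsum_eq_single _ (d.mapDomain (Equiv.swap 0 1))] at h
  · rw [← h, hprod, coeff_monomial, hswap, if_pos rfl, smul_eq_mul, mul_one]
  · intro e he
    rw [hprod, coeff_monomial, if_neg, smul_zero]
    intro hc
    apply he
    rw [hc, hswap]

/-- Galois acting on the fraction field. -/
noncomputable def galFrac (τ : Res p n ≃+* Res p n) : WFrac p n →+* WFrac p n :=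
  IsFractionRing.lift (g := (algebraMap (WittVector p (Res p n)) (WFrac p n)).comp
      (WittVector.map τ.toRingHom))
    ((IsFractionRing.injective _ _).comp (WittVector.map_injective τ.toRingHom τ.injective))

lemma galois_toRat (τ : Res p n ≃+* Res p n) (a : LT p n) :
    MvPowerSeries.map (galFrac p n τ) (toRat p n a) = toRat p n (galois p n τ a) := by
  have hc : (galFrac p n τ).comp (algebraMap (WittVector p (Res p n)) (WFrac p n)) =
      (algebraMap (WittVector p (Res p n)) (WFrac p n)).comp (WittVector.map τ.toRingHom) := by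
    ext x
    simp [galFrac, IsFractionRing.lift_algebraMap]
  simp only [toRat, galois, MvPowerSeries.map_map, hc]

lemma galois_par (τ : Res p n ≃+* Res p n) (i : ℕ) : galois p n τ (par p n i) = par p n i := by
  unfold par
  split_ifs <;> simp [galois]

lemma galois_logCoeff (τ : Res p n ≃+* Res p n) : ∀ N,
    MvPowerSeries.map (galFrac p n τ) (logCoeff p n N) = logCoeff p n N := by
  intro N
  induction N using Nat.strong_induction_on with
  | _ N ih =>
    cases N with
    | zero => rw [logCoeff, map_one]
    | succ N =>
      rw [logCoeff, map_mul, map_sum]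
      congr 1
      · simp [invP, map_inv₀]
      · refine Finset.sum_congr rfl fun i _ => ?_
        split_ifs
        · rw [map_mul, map_pow, ih _ (by omega), galois_toRat, galois_par]
        · exact map_zero _

lemma galois_logSeries (τ : Res p n ≃+* Res p n) :
    PowerSeries.map (MvPowerSeries.map (galFrac p n τ)) (logSeries p n) = logSeries p n := by
  refine PowerSeries.ext fun b => ?_
  rw [PowerSeries.coeff_map, logSeries, PowerSeries.coeff_mk, apply_ite (MvPowerSeries.map _),
    galois_logCoeff, map_zero]

theorem law_galois_fixed {F : FormalGroup (LT p n)} (hF : IsUniversalLaw p n F)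
    (τ : Res p n ≃+* Res p n) : F.map (galois p n τ) = F := by
  refine universalLaw_unique p n hF ?_
  unfold IsUniversalLaw at hF ⊢
  have hG : PowerSeries.HasSubst (MvPowerSeries.map (toRat p n) F.toPowerSeries) :=
    PowerSeries.HasSubst.of_constantCoeff_zero
      (by rw [MvPowerSeries.constantCoeff_map, F.zero_constantCoeff, map_zero])
  have h := congrArg (MvPowerSeries.map (MvPowerSeries.map (galFrac p n τ))) hF
  rw [map_add, PowerSeries.map_subst hG, PowerSeries.map_subst (PowerSeries.HasSubst.X _),
    PowerSeries.map_subst (PowerSeries.HasSubst.X _), galois_logSeries, MvPowerSeries.map_X,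
    MvPowerSeries.map_X, MvPowerSeries.map_map] at h
  rw [FormalGroup.map_toPowerSeries, MvPowerSeries.map_map]
  have hc : (MvPowerSeries.map (galFrac p n τ)).comp (toRat p n) =
      (toRat p n).comp (galois p n τ) := RingHom.ext fun a => galois_toRat p n τ a
  rw [← hc]
  exact h

lemma red_galois (τ : Res p n ≃+* Res p n) (a : LT p n) :
    red p n (galois p n τ a) = τ (red p n a) := by
  simp only [red, galois, RingHom.comp_apply, MvPowerSeries.constantCoeff_map]
  rfl

theorem law_special_fixed {F : FormalGroup (LT p n)} (hF : IsUniversalLaw p n F)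
    (d : Fin 2 →₀ ℕ) :
    coeff d (special p n F).toPowerSeries ^ p = coeff d (special p n F).toPowerSeries := by
  have hfin : Finite (Res p n) := inferInstance
  have hperf : PerfectRing (Res p n) p := inferInstance
  have h := congrArg (fun G : FormalGroup (LT p n) => red p n (coeff d G.toPowerSeries))
    (law_galois_fixed p n hF (frobeniusEquiv (Res p n) p))
  simp only [FormalGroup.map_toPowerSeries, MvPowerSeries.coeff_map, red_galois,
    frobeniusEquiv_def] at h
  simpa only [special, FormalGroup.map_toPowerSeries, MvPowerSeries.coeff_map] using h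

lemma res_pow_card (hn : n ≠ 0) (α : Res p n) : ∀ k : ℕ, α ^ p ^ (k * n) = α := by
  have : Fintype (Res p n) := Fintype.ofFinite _
  have hq : α ^ p ^ n = α := by
    have := FiniteField.pow_card α
    rwa [← Nat.card_eq_fintype_card, GaloisField.card p n hn] at this
  intro k
  induction k with
  | zero => simp
  | succ k ih => rw [Nat.succ_mul, pow_add, pow_mul, ih, hq]

/-- A law whose logarithm commutes with `t` is homogeneous for `t`. -/
lemma homogeneous_of_log {K : Type} [CommRing K] (ℓ : PowerSeries K)
    (hℓ0 : PowerSeries.constantCoeff ℓ = 0) (hℓ1 : IsUnit (PowerSeries.coeff 1 ℓ)) (t : K)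
    (htl : ∀ b, t ^ b * PowerSeries.coeff b ℓ = t * PowerSeries.coeff b ℓ)
    (G : MvPowerSeries (Fin 2) K) (hG0 : constantCoeff G = 0)
    (hGe : PowerSeries.subst G ℓ = PowerSeries.subst (X 0) ℓ + PowerSeries.subst (X 1) ℓ)
    (d : Fin 2 →₀ ℕ) : t ^ d.degree * coeff d G = t * coeff d G := by
  classical
  set A : MvPowerSeries (Fin 2) K := C t * G with hA
  set B : MvPowerSeries (Fin 2) K := MvPowerSeries.rescale (fun _ => t) G with hB
  have hA0 : constantCoeff A = 0 := by rw [hA, map_mul, hG0, mul_zero]
  have hB0 : constantCoeff B = 0 := by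
    rw [← coeff_zero_eq_constantCoeff_apply, hB, coeff_rescale, coeff_zero_eq_constantCoeff_apply,
      hG0, mul_zero]
  have hdeg : ∀ e : Fin 2 →₀ ℕ, (e.prod fun _ m => t ^ m) = t ^ e.degree := fun e => by
    rw [Finsupp.degree_apply, Finsupp.prod, Finset.prod_pow_eq_pow_sum]
  have hAl : ∀ e, coeff e (PowerSeries.subst A ℓ) = t * coeff e (PowerSeries.subst G ℓ) := by
    intro e
    rw [PowerSeries.coeff_subst (PowerSeries.HasSubst.of_constantCoeff_zero hA0),
      PowerSeries.coeff_subst (PowerSeries.HasSubst.of_constantCoeff_zero hG0),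
      mul_finsum' _ _ (PowerSeries.coeff_subst_finite
        (PowerSeries.HasSubst.of_constantCoeff_zero hG0) ℓ e)]
    refine finsum_congr fun b => ?_
    rw [hA, mul_pow, ← map_pow, coeff_C_mul, smul_eq_mul, smul_eq_mul, ← mul_assoc,
      mul_comm (PowerSeries.coeff b ℓ) (t ^ b), htl b, mul_assoc]
  have hBl : ∀ e, coeff e (PowerSeries.subst B ℓ) =
      t ^ e.degree * coeff e (PowerSeries.subst G ℓ) := by
    intro e
    have h1 : PowerSeries.subst B ℓ =
        MvPowerSeries.rescale (fun _ => t) (PowerSeries.subst G ℓ) := by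
      rw [hB, rescale_eq_subst, rescale_eq_subst, PowerSeries.subst_def, PowerSeries.subst_def,
        MvPowerSeries.subst_comp_subst_apply
          (PowerSeries.HasSubst.of_constantCoeff_zero hG0).const (HasSubst.smul_X _)]
    rw [h1, coeff_rescale, hdeg]
  have hg : ∀ e : Fin 2 →₀ ℕ, t ^ e.degree * coeff e (PowerSeries.subst G ℓ) =
      t * coeff e (PowerSeries.subst G ℓ) := by
    intro e
    rw [hGe, map_add, mul_add, mul_add, PowerSeries.coeff_subst_single,
      PowerSeries.coeff_subst_single]
    congr 1
    · split_ifs with h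
      · have he : e.degree = e 0 := by rw [h, Finsupp.degree_single, Finsupp.single_eq_same]
        rw [he, htl]
      · rw [mul_zero, mul_zero]
    · split_ifs with h
      · have he : e.degree = e 1 := by rw [h, Finsupp.degree_single, Finsupp.single_eq_same]
        rw [he, htl]
      · rw [mul_zero, mul_zero]
  have hinv : ∀ a : MvPowerSeries (Fin 2) K, constantCoeff a = 0 →
      PowerSeries.subst (PowerSeries.subst a ℓ) (ℓ.substInvOfIsUnit hℓ1) = a := by
    intro a ha
    have h1 : PowerSeries.HasSubst a := PowerSeries.HasSubst.of_constantCoeff_zero ha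
    rw [← PowerSeries.subst_comp_subst_apply (PowerSeries.HasSubst.of_constantCoeff_zero' hℓ0) h1,
      PowerSeries.subst_substInvOfIsUnit_left _ hℓ0, PowerSeries.subst_X h1]
  have hAB : B = A := by
    rw [← hinv B hB0, ← hinv A hA0]
    congr 1
    exact MvPowerSeries.ext fun e => by rw [hBl, hAl, hg]
  have hd := congrArg (coeff d) hAB
  rw [hB, hA, coeff_rescale, hdeg, coeff_C_mul] at hd
  exact hd

/-- The constant term of the logarithm. -/
noncomputable def hondaLog : PowerSeries (WFrac p n) :=
  PowerSeries.map (constantCoeff : RatLT p n →+* WFrac p n) (logSeries p n)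

/-- The law at the origin of the Lubin-Tate space. -/
noncomputable def hondaLaw (F : FormalGroup (LT p n)) : MvPowerSeries (Fin 2) (WFrac p n) :=
  MvPowerSeries.map (constantCoeff : RatLT p n →+* WFrac p n)
    (MvPowerSeries.map (toRat p n) F.toPowerSeries)

lemma hondaLaw_eq {F : FormalGroup (LT p n)} (hF : IsUniversalLaw p n F) :
    PowerSeries.subst (hondaLaw p n F) (hondaLog p n) =
      PowerSeries.subst (X 0) (hondaLog p n) + PowerSeries.subst (X 1) (hondaLog p n) := by
  have h := congrArg (MvPowerSeries.map (constantCoeff : RatLT p n →+* WFrac p n)) hF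
  rw [map_add, PowerSeries.map_subst (PowerSeries.HasSubst.of_constantCoeff_zero (by
    rw [MvPowerSeries.constantCoeff_map, F.zero_constantCoeff, map_zero])),
    PowerSeries.map_subst (PowerSeries.HasSubst.X _),
    PowerSeries.map_subst (PowerSeries.HasSubst.X _), MvPowerSeries.map_X,
    MvPowerSeries.map_X] at h
  exact h

lemma hondaLog_teich (α : Res p n) (b : ℕ) :
    (algebraMap (WittVector p (Res p n)) (WFrac p n) (WittVector.teichmuller p α)) ^ b *
        PowerSeries.coeff b (hondaLog p n) =
      algebraMap (WittVector p (Res p n)) (WFrac p n) (WittVector.teichmuller p α) *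
        PowerSeries.coeff b (hondaLog p n) := by
  rw [hondaLog, PowerSeries.coeff_map, logSeries, PowerSeries.coeff_mk]
  by_cases hb : p ^ Nat.log p b = b
  · rw [if_pos hb]
    by_cases h0 : constantCoeff (logCoeff p n (Nat.log p b)) = (0 : WFrac p n)
    · rw [h0, mul_zero, mul_zero]
    obtain ⟨k, hk⟩ := constantCoeff_logCoeff_ne_zero p n _ h0
    congr 1
    rw [← hb, hk, ← map_pow, ← map_pow]
    rcases Nat.eq_zero_or_pos n with hn | hn
    · simp [hn]
    · rw [res_pow_card p n hn.ne' α k]
  · rw [if_neg hb, map_zero, mul_zero, mul_zero]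

/-- Homogeneity of the special fibre. -/
theorem law_special_homogeneous {F : FormalGroup (LT p n)} (hF : IsUniversalLaw p n F)
    (α : Res p n) (d : Fin 2 →₀ ℕ) :
    α ^ d.degree * coeff d (special p n F).toPowerSeries =
      α * coeff d (special p n F).toPowerSeries := by
  have hd := homogeneous_of_log (hondaLog p n)
    (by rw [hondaLog, ← PowerSeries.coeff_zero_eq_constantCoeff_apply, PowerSeries.coeff_map,
      PowerSeries.coeff_zero_eq_constantCoeff_apply, logSeries_constantCoeff, map_zero])
    (by rw [hondaLog, PowerSeries.coeff_map, logSeries_coeff_one, map_one]; exact isUnit_one)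
    _ (hondaLog_teich p n α) (hondaLaw p n F)
    (by rw [hondaLaw, MvPowerSeries.constantCoeff_map, MvPowerSeries.constantCoeff_map,
      F.zero_constantCoeff, map_zero, map_zero])
    (hondaLaw_eq p n hF) d
  rw [hondaLaw, MvPowerSeries.coeff_map, MvPowerSeries.coeff_map, toRat,
    MvPowerSeries.constantCoeff_map, ← map_pow, ← map_mul, ← map_mul] at hd
  have hW := congrArg WittVector.constantCoeff
    (IsFractionRing.injective (WittVector p (Res p n)) (WFrac p n) hd)
  rw [map_mul, map_mul, map_pow] at hW
  have hα : WittVector.constantCoeff (WittVector.teichmuller p α) = α :=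
    WittVector.teichmuller_coeff_zero p α
  rw [hα] at hW
  exact hW

theorem law_special_mono {F : FormalGroup (LT p n)} (hF : IsUniversalLaw p n F) (α : Res p n)
    (j : ℕ) : IsHom (special p n F) (special p n F)
      (PowerSeries.C α * PowerSeries.X ^ p ^ j) := by
  classical
  set H := (special p n F).toPowerSeries with hH
  have hP : p ^ j ≠ 0 := pow_ne_zero _ hp.out.ne_zero
  have hH0 : PowerSeries.HasSubst H :=
    PowerSeries.HasSubst.of_constantCoeff_zero (special p n F).zero_constantCoeff
  have hfixk : ∀ (k : ℕ) (d : Fin 2 →₀ ℕ), coeff d H ^ p ^ k = coeff d H := by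
    intro k d
    induction k with
    | zero => rw [pow_zero, pow_one]
    | succ k ih =>
      rw [pow_succ, pow_mul, ih]
      exact law_special_fixed p n hF d
  have hfix : MvPowerSeries.map (iterateFrobenius (Res p n) p j) H = H := by
    refine MvPowerSeries.ext fun d => ?_
    rw [MvPowerSeries.coeff_map, iterateFrobenius_def]
    exact hfixk j d
  have hpow : H ^ p ^ j = MvPowerSeries.expand (p ^ j) hP H := by
    rw [← MvPowerSeries.map_iterateFrobenius_expand p hp.out.ne_zero H j,
      MvPowerSeries.map_expand, hfix]
  have hres : MvPowerSeries.rescale (fun _ : Fin 2 => α) H = C α * H := by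
    refine MvPowerSeries.ext fun d => ?_
    rw [coeff_rescale, coeff_C_mul, Finsupp.prod, Finset.prod_pow_eq_pow_sum,
      ← Finsupp.degree_apply]
    exact law_special_homogeneous p n hF α d
  have hX : ∀ i : Fin 2,
      PowerSeries.subst (X i : MvPowerSeries (Fin 2) (Res p n))
        (PowerSeries.C α * PowerSeries.X ^ p ^ j : PowerSeries (Res p n)) = C α * X i ^ p ^ j := by
    intro i
    rw [PowerSeries.subst_mul (PowerSeries.HasSubst.X i), PowerSeries.subst_C,
      PowerSeries.subst_pow (PowerSeries.HasSubst.X i), PowerSeries.subst_X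
      (PowerSeries.HasSubst.X i)]
  refine ⟨?_, ?_⟩
  · rw [map_mul, map_pow, PowerSeries.constantCoeff_X, zero_pow hP, mul_zero]
  · rw [← hH, PowerSeries.subst_mul hH0, PowerSeries.subst_C, PowerSeries.subst_pow hH0,
      PowerSeries.subst_X hH0, hpow, hX 0, hX 1]
    have e : (![C α * X 0 ^ p ^ j, C α * X 1 ^ p ^ j] : Fin 2 → MvPowerSeries (Fin 2) (Res p n)) =
        fun i : Fin 2 => MvPowerSeries.expand (p ^ j) hP
          (((fun _ : Fin 2 => α) • X : Fin 2 → MvPowerSeries (Fin 2) (Res p n)) i) := by
      funext i
      simp only [Pi.smul_apply', smul_eq_C_mul, map_mul, MvPowerSeries.expand_C,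
        MvPowerSeries.expand_X]
      fin_cases i <;> simp
    rw [e, ← MvPowerSeries.expand_subst (p ^ j) hP (HasSubst.smul_X _), ← rescale_eq_subst, hres,
      map_mul, MvPowerSeries.expand_C]

/-- All the facts on the law. -/
theorem lawFacts {F : FormalGroup (LT p n)} (hF : IsUniversalLaw p n F) : LawFacts p n F where
  comm := law_comm p n hF
  linear i d hd := by
    rw [law_linear p n hF i d hd, apply_ite WittVector.constantCoeff, map_neg, map_natCast,
      map_zero]
  special_low d h2 hd := by
    rw [special, FormalGroup.map_toPowerSeries, MvPowerSeries.coeff_map, red, RingHom.comp_apply,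
      law_special_low p n hF d h2 hd, apply_ite WittVector.constantCoeff, map_neg, map_natCast,
      map_zero]
  special_fixed := law_special_fixed p n hF
  special_mono := law_special_mono p n hF
  galois_fixed := law_galois_fixed p n hF

end Vale.Agent.P217
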