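/-
P217, block A: the law, its `p`-series and the facts on the law.
-/
import Vale.Agent.P217.Law.LawFields

namespace Vale.Agent.P217

variable (p n : ℕ) [Fact p.Prime]

/-- Block A: Hazewinkel's law exists and is unique. -/
theorem law : LawStatement p n :=
  law_of_funEq p n (funEqData p n).inv_log (funEqData p n).log_integral_defect

/-- Multiplication by `p`. -/
theorem pSeries : PSeriesStatement p n :=
  pSeries_of_funEq p n (funEqData p n).inv_log (funEqData p n).log_integral_defect

end Vale.Agent.P217
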