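/-
P217, block A: grading, linear terms, special fibre and shape modulo the height ideals of the
`p`-series of Hazewinkel's law.
-/
import Vale.Agent.P217.Law.Basic
import Vale.Agent.P217.Law.FunEq
import Vale.Agent.P217.Easy.Ideals
import Vale.Agent.P217.Easy.PSeries

noncomputable section

namespace Vale.Agent.P217.PF

open MvPowerSeries

set_option linter.unusedSectionVars false

section generic

variable {A K : Type} [CommRing A] [CommRing K] (D : Law.FunEqData A K) {τ : Type}

lemma frobPS_iterate_X (s : τ) : ∀ i, (D.frobPS τ)^[i] (X s : MvPowerSeries τ K) = X s ^ D.p ^ i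
  | 0 => by simp
  | i + 1 => by
    rw [Function.iterate_succ_apply', frobPS_iterate_X s i, map_pow]
    simp [Law.FunEqData.frobPS, ← pow_mul, pow_succ']

lemma defect_natCast_X (s : τ) :
    D.Integral (D.defect ((D.p : MvPowerSeries τ K) * X s)) := by
  have h : D.defect ((D.p : MvPowerSeries τ K) * X s) = MvPowerSeries.map D.inc
      ((D.p : MvPowerSeries τ A) * X s -
        ∑ i ∈ Finset.range D.n, C (D.u (i + 1)) * X s ^ D.p ^ (i + 1)) := by
    rw [Law.defect_natCast_mul, Law.FunEqData.defect, mul_sub, Finset.mul_sum, map_sub, map_sum,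
      map_mul, map_natCast, map_X]
    congr 1
    refine Finset.sum_congr rfl fun i _ => ?_
    rw [frobPS_iterate_X]
    simp only [map_mul, map_C, map_pow, map_X]
    rw [← mul_assoc, ← mul_assoc, ← map_natCast (C : K →+* MvPowerSeries τ K), ← map_mul,
      mul_comm (D.p : K), D.pinv_mul, map_one, one_mul]
  rw [h]
  exact Law.integral_map D _

lemma defect_natCast_log [Finite τ] (k : ℕ) (s : τ) : D.Integral
    (D.defect ((k : MvPowerSeries τ K) * PowerSeries.subst (X s : MvPowerSeries τ K) D.log)) := by
  intro d
  rw [Law.defect_natCast_mul, ← map_natCast (C : K →+* MvPowerSeries τ K), coeff_C_mul]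
  exact mul_mem (natCast_mem _ _) (Law.defect_log_X D D.log_integral_defect s d)

/-- A series with integral defect is the logarithm of an integral series. -/
lemma exists_preimage [Finite τ] {g : MvPowerSeries τ K} (hg : constantCoeff g = 0)
    (hint : D.Integral (D.defect g)) :
    ∃ y : MvPowerSeries τ A, constantCoeff y = 0 ∧
      PowerSeries.subst (MvPowerSeries.map D.inc y) D.log = g := by
  have h0 : constantCoeff (PowerSeries.subst g D.exp) = 0 :=
    PowerSeries.constantCoeff_subst_eq_zero hg _ (Law.exp_constantCoeff D)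
  have h1 := D.inv_log τ _ h0 (by rw [Law.log_exp D hg]; exact hint)
  obtain ⟨y, hy⟩ := Law.integral_lift D h1
  refine ⟨y, D.inc_injective ?_, by rw [hy]; exact Law.log_exp D hg⟩
  rw [map_zero, ← constantCoeff_map, hy, h0]

lemma defect_sub (a b : MvPowerSeries τ K) : D.defect (a - b) = D.defect a - D.defect b := by
  rw [eq_sub_iff_add_eq, ← Law.defect_add, sub_add_cancel]

end generic

section series

variable {R : Type} [CommRing R]

/-- The coefficient at `b` of a power `≥ 2` only involves coefficients below `b`. -/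
lemma coeff_pow_trunc {Y G : PowerSeries R} (hY : PowerSeries.constantCoeff Y = 0)
    (hG : PowerSeries.constantCoeff G = 0) {b : ℕ}
    (hd : ∀ c < b, PowerSeries.coeff c Y = PowerSeries.coeff c G) {k : ℕ} (hk : 2 ≤ k) :
    PowerSeries.coeff b (Y ^ k) = PowerSeries.coeff b (G ^ k) := by
  have hd' : (PowerSeries.X : PowerSeries R) ^ b ∣ Y - G :=
    PowerSeries.X_pow_dvd_iff.2 fun c hc => by rw [map_sub, hd c hc, sub_self]
  have hX : (PowerSeries.X : PowerSeries R) ∣ ∑ i ∈ Finset.range k, Y ^ i * G ^ (k - 1 - i) := by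
    refine Finset.dvd_sum fun i _ => ?_
    rcases Nat.eq_zero_or_pos i with rfl | h0
    · exact (dvd_pow (PowerSeries.X_dvd_iff.2 hG) (by omega)).mul_left _
    · exact (dvd_pow (PowerSeries.X_dvd_iff.2 hY) h0.ne').mul_right _
  have h2 : (PowerSeries.X : PowerSeries R) ^ (b + 1) ∣ Y ^ k - G ^ k := by
    rw [← geom_sum₂_mul, pow_succ']
    exact mul_dvd_mul hX hd'
  have h3 := PowerSeries.X_pow_dvd_iff.1 h2 b b.lt_succ_self
  rwa [map_sub, sub_eq_zero] at h3

/-- Only exponents divisible by `P`. -/
def Supp (P : ℕ) (f : PowerSeries R) : Prop := ∀ b, ¬ P ∣ b → PowerSeries.coeff b f = 0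

lemma supp_one (P : ℕ) : Supp P (1 : PowerSeries R) := fun b hb => by
  rw [PowerSeries.coeff_one, if_neg]
  rintro rfl
  exact hb (dvd_zero P)

lemma Supp.mul {P : ℕ} {f g : PowerSeries R} (hf : Supp P f) (hg : Supp P g) : Supp P (f * g) := by
  intro b hb
  rw [PowerSeries.coeff_mul]
  refine Finset.sum_eq_zero fun q hq => ?_
  rw [Finset.HasAntidiagonal.mem_antidiagonal] at hq
  by_cases h1 : P ∣ q.1
  · rw [hg q.2 (fun h2 => hb (hq ▸ dvd_add h1 h2)), mul_zero]
  · rw [hf q.1 h1, zero_mul]

lemma Supp.pow {P : ℕ} {f : PowerSeries R} (hf : Supp P f) : ∀ k, Supp P (f ^ k)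
  | 0 => by simpa using supp_one P
  | k + 1 => by rw [pow_succ]; exact (hf.pow k).mul hf

/-- Solutions of `L(Y) = B` are supported where `B` is. -/
lemma supp_of_subst {P : ℕ} {L Y B : PowerSeries R} (hY : PowerSeries.constantCoeff Y = 0)
    (hL1 : PowerSeries.coeff 1 L = 1) (hB : Supp P B) (h : PowerSeries.subst Y L = B) :
    Supp P Y := by
  intro b
  induction b using Nat.strong_induction_on with
  | _ b ih =>
    intro hb
    rcases Nat.eq_zero_or_pos b with rfl | h1
    · simpa using hY
    let G : PowerSeries R := PowerSeries.mk fun c => if c < b then PowerSeries.coeff c Y else 0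
    have hG : Supp P G := fun c hc => by
      simp only [G, PowerSeries.coeff_mk]
      split_ifs with hcb
      · exact ih c hcb hc
      · rfl
    have hG0 : PowerSeries.constantCoeff G = 0 := by
      rw [← PowerSeries.coeff_zero_eq_constantCoeff_apply]
      simp [G, h1, hY]
    have hGY : ∀ c < b, PowerSeries.coeff c Y = PowerSeries.coeff c G := fun c hc => by simp [G, hc]
    have key := congrArg (PowerSeries.coeff b) h
    rw [Easy.coeff_subst_range hY, Finset.sum_eq_single 1, hL1, one_mul, pow_one, hB b hb] at key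
    · exact key
    · intro d _ hd1
      rcases Nat.eq_zero_or_pos d with rfl | h0
      · simp only [pow_zero, supp_one P b hb, mul_zero]
      · rw [coeff_pow_trunc hY hG0 hGY (by omega : 2 ≤ d), hG.pow d b hb, mul_zero]
    · intro hmem; exact absurd (Finset.mem_range.2 (by omega)) hmem

/-- A series with linear coefficient one can be cancelled. -/
lemma subst_cancel {L Y Z : PowerSeries R} (hL0 : PowerSeries.constantCoeff L = 0)
    (hL1 : PowerSeries.coeff 1 L = 1) (hY : PowerSeries.constantCoeff Y = 0)
    (hZ : PowerSeries.constantCoeff Z = 0)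
    (h : PowerSeries.subst Y L = PowerSeries.subst Z L) : Y = Z := by
  have : Invertible (PowerSeries.coeff 1 L) := hL1.symm ▸ invertibleOne
  have hL := PowerSeries.HasSubst.of_constantCoeff_zero' hL0
  have key : ∀ W : PowerSeries R, PowerSeries.constantCoeff W = 0 →
      PowerSeries.subst (PowerSeries.subst W L) L.substInv = W := fun W hW => by
    rw [← PowerSeries.subst_comp_subst_apply hL (PowerSeries.HasSubst.of_constantCoeff_zero' hW),
      PowerSeries.subst_substInv_left _ hL0,
      PowerSeries.subst_X (PowerSeries.HasSubst.of_constantCoeff_zero' hW)]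
  rw [← key Y hY, ← key Z hZ, h]

lemma constantCoeff_map_zero {S : Type} [CommRing S] (φ : R →+* S) {f : PowerSeries R}
    (hf : PowerSeries.constantCoeff f = 0) :
    PowerSeries.constantCoeff (PowerSeries.map φ f) = 0 := by
  rw [← PowerSeries.coeff_zero_eq_constantCoeff_apply, PowerSeries.coeff_map,
    PowerSeries.coeff_zero_eq_constantCoeff_apply, hf, map_zero]

end series

variable (p n : ℕ) [hp : Fact p.Prime]

lemma coeff_log_of_not_pow {b : ℕ} (hb : ∀ N, b ≠ p ^ N) :
    PowerSeries.coeff b (logSeries p n) = 0 := by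
  rw [logSeries, PowerSeries.coeff_mk, if_neg (fun h => hb _ h.symm)]

/-- `p log x - p x`. -/
def tail : PowerSeries (RatLT p n) :=
  (p : PowerSeries (RatLT p n)) * logSeries p n - (p : PowerSeries (RatLT p n)) * PowerSeries.X

lemma coeff_natCast_mul (k b : ℕ) (f : PowerSeries (RatLT p n)) :
    PowerSeries.coeff b ((k : PowerSeries (RatLT p n)) * f) =
      (k : RatLT p n) * PowerSeries.coeff b f := by
  rw [← map_natCast (PowerSeries.C (R := RatLT p n)), PowerSeries.coeff_C_mul]

lemma sigRat_iterate_zero (k : ℕ) : (sigRat p n)^[k] 0 = 0 := by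
  rw [← RingHom.coe_pow, map_zero]

/-- The functional equation of the logarithm. -/
theorem coeff_tail (b : ℕ) : PowerSeries.coeff b (tail p n) =
    ∑ i ∈ Finset.range n, if p ^ (i + 1) ∣ b then toRat p n (par p n (i + 1)) *
      (sigRat p n)^[i + 1] (PowerSeries.coeff (b / p ^ (i + 1)) (logSeries p n)) else 0 := by
  rw [tail, map_sub, coeff_natCast_mul, coeff_natCast_mul, PowerSeries.coeff_X]
  by_cases hb : ∃ N, b = p ^ N
  · obtain ⟨N, rfl⟩ := hb
    rw [Easy.coeff_logSeries_pow]
    have hterm : ∀ i, (if p ^ (i + 1) ∣ p ^ N then toRat p n (par p n (i + 1)) *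
        (sigRat p n)^[i + 1] (PowerSeries.coeff (p ^ N / p ^ (i + 1)) (logSeries p n)) else 0) =
        if i < N then toRat p n (par p n (i + 1)) *
          (sigRat p n)^[i + 1] (logCoeff p n (N - (i + 1))) else 0 := by
      intro i
      simp only [Nat.pow_dvd_pow_iff_le_right hp.out.one_lt, Nat.succ_le_iff]
      split_ifs with h
      · rw [Nat.pow_div h hp.out.pos, Easy.coeff_logSeries_pow]
      · rfl
    simp only [hterm]
    cases N with
    | zero => simp [logCoeff]
    | succ N =>
      rw [if_neg (Nat.one_lt_pow (by omega) hp.out.one_lt).ne', mul_zero, sub_zero, logCoeff_succ',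
        Finset.mul_sum]
      simp only [mul_ite, mul_zero, ← Finset.sum_filter]
      refine Finset.sum_congr ?_ fun i hi => ?_
      · ext i; simp [Finset.mem_filter, and_comm]
      · rw [show N + 1 - (i + 1) = N - i by omega, ← mul_assoc, ← mul_assoc,
          mul_comm (p : RatLT p n), invP_mul, one_mul]
  · push Not at hb
    rw [coeff_log_of_not_pow p n hb, mul_zero, if_neg (fun h => hb 0 (by simp [h])), mul_zero,
      sub_zero]
    refine (Finset.sum_eq_zero fun i _ => ?_).symm
    split_ifs with hd
    · obtain ⟨e, rfl⟩ := hd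
      rw [Nat.mul_div_cancel_left _ (pow_pos hp.out.pos _), coeff_log_of_not_pow p n ?_,
        sigRat_iterate_zero, mul_zero]
      exact fun N hN => hb (i + 1 + N) (by rw [hN, pow_add p (i + 1) N])
    · rfl

variable {p n}

/-- A series whose logarithm is `p x` is divisible by `p`. -/
lemma dvd_of_log_eq_pX {a : PowerSeries (LT p n)} (ha0 : PowerSeries.constantCoeff a = 0)
    (ha : PowerSeries.subst (PowerSeries.map (toRat p n) a) (logSeries p n) =
      (p : PowerSeries (RatLT p n)) * PowerSeries.X) (b : ℕ) :
    (p : LT p n) ∣ PowerSeries.coeff b a := by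
  induction b using Nat.strong_induction_on with
  | _ b ih =>
    rcases Nat.eq_zero_or_pos b with rfl | hb
    · simp [ha0]
    classical
    let c : ℕ → LT p n := fun j => if h : j < b then (ih j h).choose else 0
    have hc0 : (p : LT p n) * c 0 = 0 := by
      simp only [c, dif_pos hb]
      rw [← (ih 0 hb).choose_spec]
      simpa using ha0
    let cs : PowerSeries (LT p n) := PowerSeries.mk c
    let G : PowerSeries (LT p n) := PowerSeries.C (p : LT p n) * cs
    have hG0 : PowerSeries.constantCoeff G = 0 := by
      rw [← PowerSeries.coeff_zero_eq_constantCoeff_apply, PowerSeries.coeff_C_mul,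
        PowerSeries.coeff_mk, hc0]
    have hd : ∀ j < b, PowerSeries.coeff j a = PowerSeries.coeff j G := fun j hj => by
      simp only [G, cs, c, PowerSeries.coeff_C_mul, PowerSeries.coeff_mk, dif_pos hj]
      exact (ih j hj).choose_spec
    have hpow : ∀ k, 2 ≤ k → (p : LT p n) ^ k ∣ PowerSeries.coeff b (a ^ k) := by
      intro k hk
      rw [coeff_pow_trunc ha0 hG0 hd hk, mul_pow, ← map_pow, PowerSeries.coeff_C_mul]
      exact dvd_mul_right _ _
    have key := congrArg (PowerSeries.coeff b) ha
    rw [Easy.coeff_subst_range (constantCoeff_map_zero _ ha0), ← Finset.add_sum_erase _ _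
      (Finset.mem_range.2 (by omega : 1 < b + 1)), Easy.coeff_logSeries_one, one_mul, pow_one,
      PowerSeries.coeff_map, coeff_natCast_mul, PowerSeries.coeff_X] at key
    have hrest : ∀ d ∈ (Finset.range (b + 1)).erase 1, ∃ z : LT p n,
        PowerSeries.coeff d (logSeries p n) *
          PowerSeries.coeff b (PowerSeries.map (toRat p n) a ^ d) =
            toRat p n ((p : LT p n) * z) := by
      intro d hd'
      by_cases hdp : ∃ N, d = p ^ N
      · obtain ⟨N, rfl⟩ := hdp
        have hN1 : 1 ≤ N := by
          rcases Nat.eq_zero_or_pos N with h0 | h0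
          · subst h0; exact absurd (pow_zero p) (Finset.mem_erase.1 hd').1
          · exact h0
        obtain ⟨z, hz⟩ := (funEqData p n).pow_mul_m_mem N
        obtain ⟨w, hw⟩ := hpow _ (hp.out.two_le.trans (Nat.le_self_pow (show N ≠ 0 by omega) p))
        have hNd : N + 1 ≤ p ^ N := Nat.lt_pow_self hp.out.one_lt
        obtain ⟨r, hr⟩ := Nat.exists_eq_add_of_le hNd
        refine ⟨z * ((p : LT p n) ^ r * w), ?_⟩
        have hz' : toRat p n z = (p : RatLT p n) ^ N * logCoeff p n N := hz
        rw [← map_pow, PowerSeries.coeff_map, hw, Easy.coeff_logSeries_pow, hr]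
        simp only [map_mul, map_pow, map_natCast, hz']
        rw [pow_add, pow_succ]
        ring
      · push Not at hdp
        exact ⟨0, by simp [coeff_log_of_not_pow p n hdp]⟩
    choose! z hz using hrest
    rw [Finset.sum_congr rfl hz, ← map_sum] at key
    refine ⟨(if b = 1 then 1 else 0) - ∑ d ∈ (Finset.range (b + 1)).erase 1, z d,
      toRat_injective p n ?_⟩
    rw [eq_sub_of_add_eq key]
    simp only [map_mul, map_sub, map_natCast, mul_sub, Finset.mul_sum, map_sum]
    split_ifs <;> simp

/-- Modulo `p` the `p`-series has logarithm `tail`. -/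
lemma exists_tail {F : FormalGroup (LT p n)} (hF : IsUniversalLaw p n F)
    {e : PowerSeries (LT p n)} (he : IsPSeries p n e) :
    ∃ y : PowerSeries (LT p n), PowerSeries.constantCoeff y = 0 ∧
      PowerSeries.subst (PowerSeries.map (toRat p n) y) (logSeries p n) = tail p n ∧
      ∀ b, (p : LT p n) ∣ PowerSeries.coeff b e - PowerSeries.coeff b y := by
  let D := funEqData p n
  let x : MvPowerSeries Unit (RatLT p n) := X ()
  have hlogX : PowerSeries.subst x D.log = logSeries p n := PowerSeries.X_subst _
  have h1 : D.Integral (D.defect ((p : MvPowerSeries Unit (RatLT p n)) * x)) :=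
    defect_natCast_X D ()
  have h2 : D.Integral (D.defect ((p : MvPowerSeries Unit (RatLT p n)) * logSeries p n)) := by
    have := defect_natCast_log D p (() : Unit)
    rwa [hlogX] at this
  obtain ⟨a, ha0, ha⟩ := exists_preimage D
    (g := (p : MvPowerSeries Unit (RatLT p n)) * x)
    (by rw [map_mul, constantCoeff_X, mul_zero]) h1
  obtain ⟨y, hy0, hy⟩ := exists_preimage D
    (g := (p : MvPowerSeries Unit (RatLT p n)) * logSeries p n -
      (p : MvPowerSeries Unit (RatLT p n)) * x)
    (by
      rw [map_sub, map_mul, map_mul, constantCoeff_X,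
        show constantCoeff (logSeries p n : MvPowerSeries Unit (RatLT p n)) = 0 from
          logSeries_constantCoeff p n, mul_zero, sub_zero])
    (by rw [defect_sub]; exact fun d => by rw [map_sub]; exact sub_mem (h2 d) (h1 d))
  refine ⟨y, hy0, hy, fun b => ?_⟩
  have hs : HasSubst ![a, y] :=
    hasSubst_of_constantCoeff_zero fun s => by fin_cases s; exacts [ha0, hy0]
  have heq : (e : MvPowerSeries Unit (LT p n)) = subst ![a, y] F.toPowerSeries := by
    refine eq_of_log_eq p n he.1 (Law.constantCoeff_pair ha0 hy0 F.zero_constantCoeff) ?_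
    have h3 := hF.log_add ha0 hy0
    rw [h3]
    refine he.2.trans ?_
    change (PowerSeries.C (p : RatLT p n) * logSeries p n : PowerSeries (RatLT p n)) =
      PowerSeries.subst (MvPowerSeries.map D.inc a) D.log +
        PowerSeries.subst (MvPowerSeries.map D.inc y) D.log
    rw [ha, hy, add_sub_cancel, map_natCast]
  let π := Ideal.Quotient.mk (Ideal.span {(p : LT p n)})
  have hpow : ∀ (f : MvPowerSeries Unit (LT p n)) (d : Unit →₀ ℕ),
      coeff d f = PowerSeries.coeff (d ()) f := fun f d => by
    rw [PowerSeries.coeff, ← Finsupp.unique_single d]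
  have ha' : map π a = 0 := by
    refine MvPowerSeries.ext fun d => ?_
    rw [coeff_map, map_zero, Ideal.Quotient.eq_zero_iff_mem, Ideal.mem_span_singleton, hpow a d]
    exact dvd_of_log_eq_pX ha0 ha (d ())
  have hmap : map π (e : MvPowerSeries Unit (LT p n)) = map π y := by
    rw [heq, map_subst hs]
    have hpair : (fun s => map π (![a, y] s)) =
        ![(0 : MvPowerSeries Unit (LT p n ⧸ Ideal.span {(p : LT p n)})), map π y] := by
      funext s
      fin_cases s
      · exact ha'
      · rfl
    rw [hpair]
    refine (F.map π).zero_add ?_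
    refine PowerSeries.HasSubst.of_constantCoeff_zero ?_
    rw [constantCoeff_map, hy0, map_zero]
  have := congrArg (coeff (Finsupp.single () b)) hmap
  rwa [coeff_map, coeff_map, Ideal.Quotient.eq, Ideal.mem_span_singleton] at this

/-- Modulo `I_h` the `p`-series is a series in `x^(p^h)`. -/
theorem frobenius_field {F : FormalGroup (LT p n)} (hF : IsUniversalLaw p n F)
    {e : PowerSeries (LT p n)} (he : IsPSeries p n e) (h : ℕ) (hn : h ≤ n) (b : ℕ)
    (hb : ¬ p ^ h ∣ b) : PowerSeries.coeff b e ∈ heightIdeal p n h := by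
  obtain ⟨y, hy0, hy, hd⟩ := exists_tail hF he
  have h1 : 1 ≤ h := by
    rcases Nat.eq_zero_or_pos h with rfl | h0
    · exact absurd (by simp : p ^ 0 ∣ b) hb
    · exact h0
  refine mem_heightIdeal_of_dvd h1 hn ?_
  have hsupp : Supp (p ^ h) (PowerSeries.map (Easy.spec p n h) (tail p n)) := by
    intro c hc
    rw [PowerSeries.coeff_map, coeff_tail, map_sum]
    refine Finset.sum_eq_zero fun i hi => ?_
    by_cases hih : i + 1 < h
    · split_ifs
      · rw [map_mul, show Easy.spec p n h (toRat p n (par p n (i + 1))) = 0 from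
          Easy.specLT_par_of_lt (by omega) hih hn, zero_mul]
      · exact map_zero _
    · rw [if_neg (fun hd' => hc ((Nat.pow_dvd_pow p (by omega)).trans hd')), map_zero]
  have hmap0 := constantCoeff_map_zero (toRat p n) hy0
  have hsub := congrArg (PowerSeries.map (Easy.spec p n h)) hy
  have e1 : PowerSeries.subst (PowerSeries.map (Easy.spec p n h) (PowerSeries.map (toRat p n) y))
      (PowerSeries.map (Easy.spec p n h) (logSeries p n)) =
      PowerSeries.map (Easy.spec p n h) (tail p n) := by
    rw [← hsub]
    exact (PowerSeries.map_subst (PowerSeries.HasSubst.of_constantCoeff_zero' hmap0) _).symm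
  have hY := supp_of_subst (P := p ^ h) (constantCoeff_map_zero _ hmap0)
    (by rw [PowerSeries.coeff_map, Easy.coeff_logSeries_one, map_one]) hsupp e1 b hb
  rw [PowerSeries.coeff_map, PowerSeries.coeff_map] at hY
  have h2 : Easy.OffDvd p n h (PowerSeries.coeff b y - 0) := Easy.offDvd_of_specLT (by
    rw [map_zero]; exact hY)
  obtain ⟨c, hc⟩ := hd b
  have h3 := h2.add (Easy.offDvd_p h c)
  rwa [sub_zero, ← hc, add_sub_cancel] at h3

lemma frobFrac_fixed (k : ℕ) : ∀ N, (frobFrac p n)^[k] (constantCoeff (logCoeff p n N)) =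
    constantCoeff (logCoeff p n N) := by
  intro N
  induction N using Nat.strong_induction_on with
  | _ N ih =>
    rw [← RingHom.coe_pow]
    cases N with
    | zero => simp [logCoeff]
    | succ N =>
      have hpar : ∀ i, (frobFrac p n ^ k) (constantCoeff (toRat p n (par p n (i + 1)))) =
          constantCoeff (toRat p n (par p n (i + 1))) := by
        intro i
        unfold par
        split_ifs with h1 <;> simp [toRat]
      rw [logCoeff, map_mul, map_sum, map_mul, map_sum]
      congr 1
      · simp [invP, map_inv₀]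
      · refine Finset.sum_congr rfl fun i _ => ?_
        split_ifs with h
        · rw [map_mul, map_mul, map_pow, map_pow, hpar, RingHom.coe_pow, ih (N - i) (by omega)]
        · simp

lemma constantCoeff_sigRat (i : ℕ) (a : RatLT p n) :
    constantCoeff ((sigRat p n)^[i] a) = (frobFrac p n)^[i] (constantCoeff a) := by
  induction i with
  | zero => rfl
  | succ i ih =>
    rw [Function.iterate_succ_apply', Function.iterate_succ_apply', ← ih]
    simp [sigRat]

lemma constantCoeff_par {i : ℕ} (h1 : 1 ≤ i) (h2 : i < n) :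
    constantCoeff (toRat p n (par p n i)) = 0 := by
  simp [toRat, par, h1, h2]

/-- At `u = 0` the series with logarithm `tail` is `x^(p^n)`. -/
lemma constantCoeff_tail_root (hn : 1 ≤ n) {y : PowerSeries (LT p n)}
    (hy0 : PowerSeries.constantCoeff y = 0)
    (hy : PowerSeries.subst (PowerSeries.map (toRat p n) y) (logSeries p n) = tail p n) :
    PowerSeries.map (constantCoeff : RatLT p n →+* _) (PowerSeries.map (toRat p n) y) =
      PowerSeries.X ^ p ^ n := by
  let K := FractionRing (WittVector p (Res p n))
  let c0 : RatLT p n →+* K := constantCoeff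
  let L := PowerSeries.map c0 (logSeries p n)
  have hq : p ^ n ≠ 0 := pow_ne_zero _ hp.out.ne_zero
  have hmap0 := constantCoeff_map_zero (toRat p n) hy0
  have hL1 : PowerSeries.coeff 1 L = 1 := by
    simp only [L, c0]
    rw [PowerSeries.coeff_map, Easy.coeff_logSeries_one, map_one]
  refine subst_cancel (L := L) (constantCoeff_map_zero _ (logSeries_constantCoeff p n)) hL1
    (constantCoeff_map_zero _ hmap0) (by simp [hp.out.ne_zero]) ?_
  have h1 := congrArg (PowerSeries.map c0) hy
  have h2 : PowerSeries.map c0
      (PowerSeries.subst (PowerSeries.map (toRat p n) y) (logSeries p n)) =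
      PowerSeries.subst (PowerSeries.map c0 (PowerSeries.map (toRat p n) y)) L :=
    PowerSeries.map_subst (PowerSeries.HasSubst.of_constantCoeff_zero' hmap0) _
  refine (h2.symm.trans h1).trans ?_
  ext1 b
  rw [PowerSeries.coeff_subst_X_pow hq, Algebra.algebraMap_self, RingHom.id_apply,
    PowerSeries.coeff_map, coeff_tail, map_sum, Finset.sum_eq_single (n - 1)]
  · rw [Nat.sub_add_cancel hn]
    have hpn : par p n n = 1 := by simp [par, show n ≠ 0 by omega]
    rw [hpn, map_one, one_mul]
    split_ifs with hdb
    · simp only [c0, L, PowerSeries.coeff_map]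
      rw [logSeries, PowerSeries.coeff_mk]
      split_ifs
      · exact (constantCoeff_sigRat n _).trans (frobFrac_fixed n _)
      · rw [← RingHom.coe_pow, map_zero, map_zero]
    · rw [map_zero]
  · intro i hi hne
    have hi' := Finset.mem_range.1 hi
    split_ifs
    · rw [map_mul]
      exact mul_eq_zero_of_left (constantCoeff_par (by omega) (by omega)) _
    · exact map_zero _
  · intro hmem; exact absurd (Finset.mem_range.2 (by omega)) hmem

/-- The special fibre of the `p`-series is `x^(p^n)`. -/
theorem special_field (hn : 1 ≤ n) {F : FormalGroup (LT p n)} (hF : IsUniversalLaw p n F)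
    {e : PowerSeries (LT p n)} (he : IsPSeries p n e) :
    PowerSeries.map (red p n) e = (PowerSeries.X : PowerSeries (Res p n)) ^ p ^ n := by
  obtain ⟨y, hy0, hy, hd⟩ := exists_tail hF he
  have hYX := constantCoeff_tail_root hn hy0 hy
  ext1 b
  have h1 : red p n (PowerSeries.coeff b e) = red p n (PowerSeries.coeff b y) := by
    obtain ⟨c, hc⟩ := hd b
    rw [← sub_eq_zero, ← map_sub, hc, map_mul, map_natCast, CharP.cast_eq_zero, zero_mul]
  rw [PowerSeries.coeff_map, h1, PowerSeries.coeff_X_pow]
  have h2 := congrArg (PowerSeries.coeff b) hYX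
  simp only [PowerSeries.coeff_map, toRat, constantCoeff_map, PowerSeries.coeff_X_pow] at h2
  have h3 : MvPowerSeries.constantCoeff (PowerSeries.coeff b y) =
      if b = p ^ n then 1 else 0 := by
    apply IsFractionRing.injective (WittVector p (Res p n))
      (FractionRing (WittVector p (Res p n)))
    rw [h2]
    split_ifs <;> simp
  simp only [red, RingHom.comp_apply, h3]
  split_ifs <;> simp

lemma coeff_single_mul_zero {σ S : Type} [CommRing S] {f g : MvPowerSeries σ S} (s : σ)
    (hf : constantCoeff f = 0) (hg : constantCoeff g = 0) :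
    coeff (Finsupp.single s 1) (f * g) = 0 := by
  classical
  rw [coeff_mul]
  refine Finset.sum_eq_zero fun q hq => ?_
  rw [Finset.HasAntidiagonal.mem_antidiagonal] at hq
  rcases eq_or_ne q.1 0 with h | h
  · rw [h, coeff_zero_eq_constantCoeff_apply, hf, zero_mul]
  rcases eq_or_ne q.2 0 with h' | h'
  · rw [h', coeff_zero_eq_constantCoeff_apply, hg, mul_zero]
  · exfalso
    have e := congrArg Finsupp.degree hq
    rw [Finsupp.degree.map_add, Finsupp.degree_single] at e
    have := Nat.pos_of_ne_zero (mt (Finsupp.degree_eq_zero_iff _).1 h)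
    have := Nat.pos_of_ne_zero (mt (Finsupp.degree_eq_zero_iff _).1 h')
    omega

lemma coeff_single_mul_left {σ S : Type} [CommRing S] {f g : MvPowerSeries σ S} (s : σ)
    (hf : constantCoeff f = 0) :
    coeff (Finsupp.single s 1) (f * g) = coeff (Finsupp.single s 1) f * constantCoeff g := by
  have h : f * g = f * C (constantCoeff g) + f * (g - C (constantCoeff g)) := by ring
  rw [h, map_add, coeff_mul_C, coeff_single_mul_zero s hf (by simp), add_zero]

/-- The coefficient of `u_i` at `x^(p^i)` is `1` modulo `p`. -/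
theorem linear_field {F : FormalGroup (LT p n)} (hF : IsUniversalLaw p n F)
    {e : PowerSeries (LT p n)} (he : IsPSeries p n e) (i : Fin (n - 1)) :
    WittVector.constantCoeff
      (coeff (Finsupp.single i 1) (PowerSeries.coeff (p ^ (i.val + 1)) e)) = 1 := by
  classical
  have hi := i.isLt
  have hn : 1 ≤ n := by omega
  obtain ⟨y, hy0, hy, hd⟩ := exists_tail hF he
  have hYX := constantCoeff_tail_root hn hy0 hy
  set Y := PowerSeries.map (toRat p n) y with hYdef
  set b := p ^ (i.val + 1) with hbdef
  have hbn : b < p ^ n := Nat.pow_lt_pow_right hp.out.one_lt (by omega)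
  have hb2 : 2 ≤ b := hp.out.two_le.trans (Nat.le_self_pow (by omega) p)
  have hlow : ∀ k c, 1 ≤ k → c < p ^ n → constantCoeff (PowerSeries.coeff c (Y ^ k)) = 0 := by
    intro k c hk hc
    rw [← PowerSeries.coeff_map, map_pow, hYX, ← pow_mul, PowerSeries.coeff_X_pow, if_neg]
    have : p ^ n ≤ p ^ n * k := Nat.le_mul_of_pos_right _ hk
    omega
  have hpow : ∀ d, 2 ≤ d → coeff (Finsupp.single i 1) (PowerSeries.coeff b (Y ^ d)) = 0 := by
    intro d hd2
    obtain ⟨d, rfl⟩ : ∃ d', d = d' + 1 := ⟨d - 1, by omega⟩
    rw [pow_succ', PowerSeries.coeff_mul, map_sum]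
    refine Finset.sum_eq_zero fun q hq => ?_
    rw [Finset.HasAntidiagonal.mem_antidiagonal] at hq
    refine coeff_single_mul_zero i ?_ (hlow d q.2 (by omega) (by omega))
    simpa using hlow 1 q.1 le_rfl (by omega)
  have hy1 : coeff (Finsupp.single i 1) (PowerSeries.coeff b Y) = 1 := by
    have key := congrArg (PowerSeries.coeff b) hy
    rw [Easy.coeff_subst_range (constantCoeff_map_zero _ hy0), ← hYdef, ← Finset.add_sum_erase _ _
      (Finset.mem_range.2 (by omega : 1 < b + 1)), Easy.coeff_logSeries_one, one_mul, pow_one,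
      coeff_tail] at key
    have key' := congrArg (coeff (Finsupp.single i 1)) key
    rw [map_add, map_sum, map_sum, Finset.sum_eq_zero (s := (Finset.range (b + 1)).erase 1),
      add_zero, Finset.sum_eq_single i.val] at key'
    · rw [key', if_pos dvd_rfl, Nat.div_self (by omega), Easy.coeff_logSeries_one,
        iterate_map_one, mul_one, show par p n (i.val + 1) = X i from par_succ hi, toRat, map_X,
        coeff_X, if_pos rfl]
    · intro j hj hne
      have hj' := Finset.mem_range.1 hj
      split_ifs with hdvd
      · have hji : j < i.val := by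
          have := (Nat.pow_dvd_pow_iff_le_right hp.out.one_lt).1 hdvd
          omega
        rw [show par p n (j + 1) = X ⟨j, by omega⟩ from par_succ (by omega), toRat, map_X,
          coeff_single_mul_left i (constantCoeff_X _), coeff_X, if_neg, zero_mul]
        intro h
        have := Finsupp.single_left_injective one_ne_zero h
        exact hne (by rw [this])
      · exact map_zero _
    · intro hmem; exact absurd (Finset.mem_range.2 (by omega)) hmem
    · intro d hd'
      rcases Nat.lt_or_ge d 2 with hd2 | hd2
      · obtain rfl : d = 0 := by have := (Finset.mem_erase.1 hd').1; omega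
        simp [logSeries]
      · rw [mul_comm, coeff_single_mul_left i (hlow d b (by omega) hbn), hpow d hd2, zero_mul]
  rw [hYdef, PowerSeries.coeff_map, toRat, coeff_map] at hy1
  have hy2 : coeff (Finsupp.single i 1) (PowerSeries.coeff b y) = 1 :=
    IsFractionRing.injective (WittVector p (Res p n)) (FractionRing (WittVector p (Res p n)))
      (hy1.trans (map_one _).symm)
  obtain ⟨c, hc⟩ := hd b
  rw [show PowerSeries.coeff b e = PowerSeries.coeff b y + (p : LT p n) * c by rw [← hc]; ring,
    map_add, hy2, ← map_natCast (C : _ →+* LT p n), coeff_C_mul, map_add, map_one, map_mul,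
    map_natCast, CharP.cast_eq_zero, zero_mul, add_zero]

/-- Weight of a monomial in `u`: `u_i` has weight `p^i - 1`. -/
def wt (a : Fin (n - 1) →₀ ℕ) : ℕ := ∑ l, a l * (p ^ (l.val + 1) - 1)

lemma wt_zero : wt (p := p) (n := n) 0 = 0 := by simp [wt]

lemma wt_add (a a' : Fin (n - 1) →₀ ℕ) :
    wt (p := p) (a + a') = wt (p := p) a + wt (p := p) a' := by
  simp [wt, add_mul, Finset.sum_add_distrib]

lemma wt_single (j : Fin (n - 1)) (k : ℕ) :
    wt (p := p) (Finsupp.single j k) = k * (p ^ (j.val + 1) - 1) := by
  classical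
  rw [wt, Finset.sum_eq_single j]
  · simp
  · intro l _ hl; simp [Ne.symm hl]
  · simp

/-- All monomials have weight at most `B`. -/
def WtLE (c : RatLT p n) (B : ℕ) : Prop := ∀ a, coeff a c ≠ 0 → wt (p := p) a ≤ B

lemma WtLE.mul {c c' : RatLT p n} {B B' : ℕ} (h : WtLE c B) (h' : WtLE c' B') :
    WtLE (c * c') (B + B') := by
  classical
  intro a ha
  rw [coeff_mul] at ha
  obtain ⟨q, hq, hq'⟩ := Finset.exists_ne_zero_of_sum_ne_zero ha
  rw [Finset.HasAntidiagonal.mem_antidiagonal] at hq
  rw [← hq, wt_add]
  exact Nat.add_le_add (h _ (left_ne_zero_of_mul hq')) (h' _ (right_ne_zero_of_mul hq'))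

lemma WtLE.mono {c : RatLT p n} {B B' : ℕ} (h : WtLE c B) (hB : B ≤ B') : WtLE c B' :=
  fun a ha => (h a ha).trans hB

lemma wtLE_C (x : FractionRing (WittVector p (Res p n))) (B : ℕ) : WtLE (C x) B := by
  classical
  intro a ha
  rw [coeff_C] at ha
  split_ifs at ha with h0
  · rw [h0, wt_zero]; exact Nat.zero_le _
  · exact absurd rfl ha

lemma WtLE.sum {ι : Type} (s : Finset ι) (f : ι → RatLT p n) {B : ℕ}
    (h : ∀ i ∈ s, WtLE (f i) B) : WtLE (∑ i ∈ s, f i) B := by
  intro a ha
  rw [map_sum] at ha
  obtain ⟨i, hi, hi'⟩ := Finset.exists_ne_zero_of_sum_ne_zero ha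
  exact h i hi a hi'

lemma wtLE_par_pow (i k : ℕ) :
    WtLE (toRat p n (par p n (i + 1)) ^ k) (k * (p ^ (i + 1) - 1)) := by
  classical
  intro a ha
  by_cases hin : i < n - 1
  · rw [par_succ hin, toRat, map_X, coeff_X_pow] at ha
    split_ifs at ha with h
    · rw [h, wt_single]
    · exact absurd rfl ha
  · have hone : toRat p n (par p n (i + 1)) ^ k = 1 := by
      rw [par, dif_neg (by omega), if_neg (by omega), map_one, one_pow]
    rw [hone, coeff_one] at ha
    split_ifs at ha with h
    · rw [h, wt_zero]; exact Nat.zero_le _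
    · exact absurd rfl ha

lemma wtLE_logCoeff : ∀ N, WtLE (logCoeff p n N) (p ^ N - 1) := by
  intro N
  induction N using Nat.strong_induction_on with
  | _ N ih =>
    cases N with
    | zero => rw [logCoeff, ← map_one (C : _ →+* RatLT p n)]; exact wtLE_C _ _
    | succ N =>
      rw [logCoeff, invP, ← Nat.zero_add (p ^ (N + 1) - 1)]
      refine (wtLE_C _ 0).mul (WtLE.sum _ _ fun i _ => ?_)
      split_ifs
      · refine ((ih (N - i) (by omega)).mul (wtLE_par_pow _ _)).mono (le_of_eq ?_)
        have h1 : 1 ≤ p ^ (i.val + 1) := Nat.one_le_pow _ _ hp.out.pos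
        have h2 : 1 ≤ p ^ (N - i.val) := Nat.one_le_pow _ _ hp.out.pos
        have h3 : p ^ (N + 1) = p ^ (N - i.val) * p ^ (i.val + 1) := by
          rw [← pow_add]; congr 1; omega
        rw [h3, Nat.mul_sub, mul_one]
        have h4 : p ^ (N - i.val) ≤ p ^ (N - i.val) * p ^ (i.val + 1) :=
          Nat.le_mul_of_pos_right _ h1
        omega
      · intro a ha; simp at ha

/-- A monomial `u^a` at `x^b` has weight at most `b - m`. -/
def Hom (f : PowerSeries (RatLT p n)) (m : ℕ) : Prop :=
  ∀ b a, coeff a (PowerSeries.coeff b f) ≠ 0 → wt (p := p) a + m ≤ b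

lemma Hom.mul {f g : PowerSeries (RatLT p n)} {m k : ℕ} (hf : Hom f m) (hg : Hom g k) :
    Hom (f * g) (m + k) := by
  classical
  intro b a ha
  rw [PowerSeries.coeff_mul, map_sum] at ha
  obtain ⟨q, hq, hq'⟩ := Finset.exists_ne_zero_of_sum_ne_zero ha
  rw [coeff_mul] at hq'
  obtain ⟨r, hr, hr'⟩ := Finset.exists_ne_zero_of_sum_ne_zero hq'
  rw [Finset.HasAntidiagonal.mem_antidiagonal] at hq hr
  have h1 := hf _ _ (left_ne_zero_of_mul hr')
  have h2 := hg _ _ (right_ne_zero_of_mul hr')
  rw [← hr, wt_add]
  omega

lemma Hom.pow {f : PowerSeries (RatLT p n)} (hf : Hom f 1) : ∀ d, Hom (f ^ d) d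
  | 0 => by
    classical
    intro b a ha
    rw [pow_zero, PowerSeries.coeff_one] at ha
    split_ifs at ha with hb
    · rw [coeff_one] at ha
      split_ifs at ha with h0
      · rw [h0, wt_zero]; omega
      · exact absurd rfl ha
    · exact absurd (map_zero _) ha
  | d + 1 => by rw [pow_succ]; exact (hf.pow d).mul hf

lemma hom_log : Hom (logSeries p n) 1 := by
  intro b a ha
  by_cases hb : ∃ N, b = p ^ N
  · obtain ⟨N, rfl⟩ := hb
    rw [Easy.coeff_logSeries_pow] at ha
    have := wtLE_logCoeff N a ha
    have h1 : 1 ≤ p ^ N := Nat.one_le_pow _ _ hp.out.pos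
    omega
  · push Not at hb
    rw [coeff_log_of_not_pow p n hb, map_zero] at ha
    exact absurd rfl ha

/-- The `p`-series is homogeneous: a monomial `u^a` at `x^b` has weight at most `b - 1`. -/
theorem grading_field {e : PowerSeries (LT p n)} (he : IsPSeries p n e) (b : ℕ)
    (a : Fin (n - 1) →₀ ℕ) (ha : coeff a (PowerSeries.coeff b e) ≠ 0) :
    ∑ l, a l * (p ^ (l.val + 1) - 1) ≤ b - 1 := by
  set E := PowerSeries.map (toRat p n) e with hE
  have hE0 : PowerSeries.constantCoeff E = 0 := constantCoeff_map_zero _ he.1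
  have key : ∀ b a, coeff a (PowerSeries.coeff b E) ≠ 0 → wt (p := p) a + 1 ≤ b := by
    intro b
    induction b using Nat.strong_induction_on with
    | _ b ih =>
      intro a ha
      rcases Nat.eq_zero_or_pos b with rfl | hb
      · rw [PowerSeries.coeff_zero_eq_constantCoeff_apply, hE0, map_zero] at ha
        exact absurd rfl ha
      let G : PowerSeries (RatLT p n) :=
        PowerSeries.mk fun c => if c < b then PowerSeries.coeff c E else 0
      have hG : Hom G 1 := fun c a' ha' => by
        simp only [G, PowerSeries.coeff_mk] at ha'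
        split_ifs at ha' with hcb
        · exact ih c hcb a' ha'
        · exact absurd (map_zero _) ha'
      have hG0 : PowerSeries.constantCoeff G = 0 := by
        rw [← PowerSeries.coeff_zero_eq_constantCoeff_apply]
        simp [G, hb, hE0]
      have hGE : ∀ c < b, PowerSeries.coeff c E = PowerSeries.coeff c G :=
        fun c hc => by simp [G, hc]
      have hkey := congrArg (PowerSeries.coeff b) he.2
      rw [← hE, Easy.coeff_subst_range hE0, ← Finset.add_sum_erase _ _
        (Finset.mem_range.2 (by omega : 1 < b + 1)), Easy.coeff_logSeries_one, one_mul, pow_one,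
        PowerSeries.coeff_C_mul] at hkey
      have h1 : WtLE ((p : RatLT p n) * PowerSeries.coeff b (logSeries p n)) (b - 1) := by
        rw [← Nat.zero_add (b - 1), ← map_natCast (C : _ →+* RatLT p n)]
        refine (wtLE_C _ 0).mul fun a' ha' => ?_
        have := hom_log b a' ha'
        omega
      have h2 : WtLE (∑ d ∈ (Finset.range (b + 1)).erase 1, PowerSeries.coeff d (logSeries p n) *
          PowerSeries.coeff b (E ^ d)) (b - 1) := by
        refine WtLE.sum _ _ fun d hd => ?_
        rcases Nat.lt_or_ge d 2 with hd2 | hd2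
        · obtain rfl : d = 0 := by have := (Finset.mem_erase.1 hd).1; omega
          intro a' ha'
          simp [logSeries] at ha'
        · rw [coeff_pow_trunc hE0 hG0 hGE hd2]
          have hdb : d ≤ b := Nat.lt_succ_iff.1 (Finset.mem_range.1 (Finset.mem_erase.1 hd).2)
          refine (WtLE.mul (B := d - 1) (B' := b - d) ?_ ?_).mono (by omega)
          · intro a' ha'; have := hom_log d a' ha'; omega
          · intro a' ha'; have := hG.pow d b a' ha'; omega
      rw [eq_sub_of_add_eq hkey, map_sub] at ha
      have : wt (p := p) a ≤ b - 1 := by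
        by_cases h3 : coeff a ((p : RatLT p n) * PowerSeries.coeff b (logSeries p n)) = 0
        · rw [h3, zero_sub, neg_ne_zero] at ha
          exact h2 a ha
        · exact h1 a h3
      omega
  have hne : coeff a (PowerSeries.coeff b E) ≠ 0 := by
    rw [hE, PowerSeries.coeff_map, toRat, coeff_map]
    exact (map_ne_zero_iff _ (IsFractionRing.injective _ _)).2 ha
  have := key b a hne
  change wt (p := p) a ≤ b - 1
  omega

/-- The elementary facts on the `p`-series. -/
theorem pSeriesFacts (hn : 1 ≤ n) {F : FormalGroup (LT p n)} (hF : IsUniversalLaw p n F)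
    {e : PowerSeries (LT p n)} (he : IsPSeries p n e) : PSeriesFacts p n e where
  grading := grading_field he
  linear := linear_field hF he
  special := special_field hn hF he
  frobenius := frobenius_field hF he

end Vale.Agent.P217.PF
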