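/-
P217, block A: the facts used by the other blocks.
-/
import Vale.Agent.P217.Law.Main
import Vale.Agent.P217.Law.PFacts

namespace Vale.Agent.P217

variable (p n : ℕ) [Fact p.Prime]

/-- The facts on the law and on its `p`-series. -/
theorem facts (hn : 1 ≤ n) : FactsStatement p n := fun _ hF =>
  ⟨lawFacts p n hF, fun _ he => ⟨he.isHom p n hF, PF.pSeriesFacts hn hF he⟩⟩

end Vale.Agent.P217
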